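import Vale.Agent.Lib.P040D.Poly

/-!
The decomposition of the complete graph on an odd point set, with indices sorted by height,
into closed convex polygons.
-/

namespace Vale.Agent.P040D

open Finset
open Vale.Agent.P040

theorem gt_zero_of_head {p : List ℕ} {b : ℕ} (h : p.head? = some b) : gt p 0 = b := by
  cases p with
  | nil => simp at h
  | cons x l =>
    simp only [List.head?_cons, Option.some.injEq] at h
    simp [gt, h]

theorem gt_last_of_getLast {p : List ℕ} {t : ℕ} (h : p.getLast? = some t) :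
    gt p (arcs p).length = t := by
  rw [arcs_length]
  rw [List.getLast?_eq_getElem?] at h
  simp [gt, List.getD_eq_getElem?_getD, h]

theorem sum_arcs_eq (G : ℕ → ℕ → ℕ) (p : List ℕ) :
    ∑ i ∈ range (arcs p).length, G (gt p i) (gt p (i + 1)) =
      ((arcs p).map fun e => G e.1 e.2).sum := by
  induction p with
  | nil => simp [arcs]
  | cons x l ih =>
    cases l with
    | nil => simp [arcs]
    | cons y l' =>
      simp only [arcs, List.length_cons, List.map_cons, List.sum_cons] at ih ⊢
      rw [Finset.sum_range_succ']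
      rw [add_comm]
      simp only [gt, List.getD_cons_zero, List.getD_cons_succ] at ih ⊢
      rw [ih]

theorem polygon_sum {p q : List ℕ} (h1 : gt p (arcs p).length = gt q (arcs q).length)
    (G : ℕ → ℕ → ℕ) (hG : ∀ x y, G x y = G y x) :
    ∑ i ∈ range ((arcs p).length + (arcs q).length), G (polyV p q i) (polyV p q (i + 1)) =
      ((arcs p).map fun e => G e.1 e.2).sum + ((arcs q).map fun e => G e.1 e.2).sum := by
  rw [Finset.sum_range_add, ← sum_arcs_eq, ← sum_arcs_eq]
  congr 1
  · refine Finset.sum_congr rfl fun i hi => ?_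
    have hi' := Finset.mem_range.1 hi
    rw [polyV_le (by omega), polyV_le (by omega)]
  · rw [← Finset.sum_range_reflect]
    refine Finset.sum_congr rfl fun x hx => ?_
    have hx' := Finset.mem_range.1 hx
    rw [polyV_ge h1 (by omega), polyV_ge h1 (by omega), hG]
    congr 2 <;> omega

theorem mem_of_sum_filter {k : ℕ} {l : List (ℕ × ℕ)} {L : ℕ × ℕ → Finset ℕ}
    {chain : ℕ × ℕ → List ℕ} {s : Finset (ℕ × ℕ)}
    (h : ∑ p ∈ s, (↑(arcs (chain p)) : Multiset (ℕ × ℕ)) = ↑(l.filter fun e => k ≤ (L e).card))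
    {t : ℕ × ℕ} (ht : t ∈ s) {e : ℕ × ℕ} (he : e ∈ arcs (chain t)) : k ≤ (L e).card := by
  have h1 : e ∈ ∑ p ∈ s, (↑(arcs (chain p)) : Multiset (ℕ × ℕ)) :=
    Multiset.mem_sum.2 ⟨t, ht, by simpa using he⟩
  rw [h] at h1
  have h2 := Multiset.mem_coe.1 h1
  simpa using (List.mem_filter.1 h2).2

/-- Decomposition at the level of indices. -/
theorem decomp_nat {k : ℕ} {c : ℕ → ℝ × ℝ} (hS : Sorted (2 * k + 1) c) :
    ∃ (V : ℕ × ℕ → ℕ → ℕ) (N : ℕ × ℕ → ℕ),
      (∀ t ∈ longPairs k, 3 ≤ N t) ∧
      (∀ t ∈ longPairs k, V t (N t) = V t 0) ∧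
      (∀ t ∈ longPairs k, ∀ i j, i < N t → j < N t → j ≠ i → j ≠ i + 1 →
        (i + 1 = N t → j ≠ 0) → 0 < det3 (c (V t i)) (c (V t (i + 1))) (c (V t j))) ∧
      (∀ G : ℕ → ℕ → ℕ, (∀ x y, G x y = G y x) →
        ∑ t ∈ longPairs k, ∑ i ∈ range (N t), G (V t i) (V t (i + 1)) =
          ((allPairs (2 * k + 1)).map fun e => G e.1 e.2).sum) ∧
      2 * (longPairs k).card = k * (k + 1) := by
  classical
  have hS' := hS.mirror
  obtain ⟨ev, hperm, hG, hpw⟩ := exists_events hS
  obtain ⟨ev', hperm', hG', hpw'⟩ := exists_events hS'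
  obtain ⟨chain, hc1, hc2, hc3⟩ := token_chains hG
  obtain ⟨chain', hc1', hc2', _⟩ := token_chains hG'
  have hmemev : ∀ e ∈ allPairs (2 * k + 1), e.1 < e.2 ∧ e.2 < 2 * k + 1 := by
    rintro ⟨u, v⟩ he
    exact mem_allPairs.1 he
  -- the two chains of each long pair together use each pair exactly once
  have hsum : ∑ t ∈ longPairs k,
      ((↑(arcs (chain t)) : Multiset (ℕ × ℕ)) + ↑(arcs (chain' t))) =
      ↑(allPairs (2 * k + 1)) := by
    rw [Finset.sum_add_distrib, hc2, hc2']
    have h1 : (ev.filter fun e => k ≤ (leftSet (2 * k + 1) c e).card).Perm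
        ((allPairs (2 * k + 1)).filter fun e => k ≤ (leftSet (2 * k + 1) c e).card) :=
      hperm.filter _
    have h2 : (ev'.filter fun e => k ≤ (leftSet (2 * k + 1) (fun i => mir (c i)) e).card).Perm
        ((allPairs (2 * k + 1)).filter fun e =>
          k ≤ (leftSet (2 * k + 1) (fun i => mir (c i)) e).card) :=
      hperm'.filter _
    have h3 : ((allPairs (2 * k + 1)).filter fun e =>
          k ≤ (leftSet (2 * k + 1) (fun i => mir (c i)) e).card) =
        (allPairs (2 * k + 1)).filter fun e =>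
          !decide (k ≤ (leftSet (2 * k + 1) c e).card) := by
      refine List.filter_congr fun e he => ?_
      obtain ⟨h4, h5⟩ := hmemev e he
      have h6 := leftSet_card_add hS (u := e.1) (v := e.2) h4 h5
      simp only [Prod.mk.eta] at h6
      by_cases h7 : k ≤ (leftSet (2 * k + 1) c e).card
      · have h8 : ¬ k ≤ (leftSet (2 * k + 1) (fun i => mir (c i)) e).card := by omega
        simp [h7, h8]
      · have h8 : k ≤ (leftSet (2 * k + 1) (fun i => mir (c i)) e).card := by omega
        simp [h7, h8]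
    rw [Multiset.coe_eq_coe.2 h1, Multiset.coe_eq_coe.2 h2, h3, Multiset.coe_add,
      Multiset.coe_eq_coe]
    exact List.filter_append_perm _ _
  -- facts on each chain
  have hb : ∀ t ∈ longPairs k, gt (chain t) 0 = t.1 ∧ gt (chain' t) 0 = t.1 ∧
      gt (chain t) (arcs (chain t)).length = t.2 ∧
      gt (chain' t) (arcs (chain' t)).length = t.2 := by
    intro t ht
    exact ⟨gt_zero_of_head (hc1 t ht).1, gt_zero_of_head (hc1' t ht).1,
      gt_last_of_getLast (hc1 t ht).2.1, gt_last_of_getLast (hc1' t ht).2.1⟩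
  have hlt : ∀ t ∈ longPairs k, t.1 < t.2 := by
    intro t ht
    have := (mem_longPairs.1 ht).1
    omega
  have ha : ∀ t ∈ longPairs k, 1 ≤ (arcs (chain t)).length ∧ 1 ≤ (arcs (chain' t)).length := by
    intro t ht
    obtain ⟨h1, h2, h3, h4⟩ := hb t ht
    have := hlt t ht
    constructor
    · by_contra hn
      have h0 : (arcs (chain t)).length = 0 := by omega
      rw [h0, h1] at h3
      omega
    · by_contra hn
      have h0 : (arcs (chain' t)).length = 0 := by omega
      rw [h0, h2] at h4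
      omega
  have harc1 : ∀ (p : List ℕ), (arcs p).length = 1 → arcs p = [(gt p 0, gt p 1)] := by
    intro p hp
    have h1 : (arcs p)[0]'(by omega) = (gt p 0, gt p (0 + 1)) := arcs_getElem p 0 (by omega)
    rw [List.length_eq_one_iff] at hp
    obtain ⟨e, he⟩ := hp
    simp only [he, List.getElem_cons_zero] at h1
    rw [he, h1]
  refine ⟨fun t => polyV (chain t) (chain' t),
    fun t => (arcs (chain t)).length + (arcs (chain' t)).length, ?_, ?_, ?_, ?_, hc3⟩
  · intro t ht
    obtain ⟨h1, h2, h3, h4⟩ := hb t ht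
    obtain ⟨h5, h6⟩ := ha t ht
    by_contra hn
    have hn' : ¬ 3 ≤ (arcs (chain t)).length + (arcs (chain' t)).length := hn
    have h7 : (arcs (chain t)).length = 1 := by omega
    have h8 : (arcs (chain' t)).length = 1 := by omega
    have h9 := harc1 _ h7
    have h10 := harc1 _ h8
    rw [h7] at h3
    rw [h8] at h4
    rw [h1, h3] at h9
    rw [h2, h4] at h10
    have m1 : k ≤ (leftSet (2 * k + 1) c t).card := by
      have := mem_of_sum_filter (e := t) hc2 ht (by rw [h9]; simp)
      exact this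
    have m2 : k ≤ (leftSet (2 * k + 1) (fun i => mir (c i)) t).card := by
      have := mem_of_sum_filter (e := t) hc2' ht (by rw [h10]; simp)
      exact this
    have m3 := (mem_longPairs.1 ht).2
    have m4 := leftSet_card_add hS (u := t.1) (v := t.2) (hlt t ht) m3
    simp only [Prod.mk.eta] at m4
    omega
  · intro t ht
    obtain ⟨h1, h2, h3, h4⟩ := hb t ht
    obtain ⟨h5, h6⟩ := ha t ht
    simp only
    rw [polyV_gt (by omega), polyV_le (by omega)]
    rw [Nat.sub_self, h1, h2]
  · intro t ht i j hi hj h1 h2 h3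
    obtain ⟨h4, h5, h6, h7⟩ := hb t ht
    have hP := ltchain_of_sublist hS (fun u v => hG.mem u v) hpw (hc1 t ht).2.2
    have hQ := ltchain_of_sublist hS' (fun u v => hG'.mem u v) hpw' (hc1' t ht).2.2
    exact poly_convex hP hQ (h4.trans h5.symm) (h6.trans h7.symm) hi hj h1 h2 h3
  · intro G hGs
    have hφ : ∀ l : List (ℕ × ℕ), (l.map fun e => G e.1 e.2).sum =
        (Multiset.sumAddMonoidHom.comp (Multiset.mapAddMonoidHom fun e : ℕ × ℕ => G e.1 e.2))
          (↑l : Multiset (ℕ × ℕ)) := by
      intro l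
      simp
    rw [hφ, ← hsum, map_sum]
    refine Finset.sum_congr rfl fun t ht => ?_
    obtain ⟨h4, h5, h6, h7⟩ := hb t ht
    simp only
    rw [polygon_sum (h6.trans h7.symm) G hGs, map_add, ← hφ, ← hφ]

end Vale.Agent.P040D
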