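import Vale.Agent.Lib.P040.Cross

/-!
Interface of the polygon route to the straight-line Zarankiewicz bound:
convex polygons as cyclic vertex maps, pairs of sides of crossing type,
the two polygon lemma and the decomposition of the complete graph into convex polygons.
-/

namespace Vale.Agent.P040D

open Vale.Agent.P040

/-- Cyclic vertex map of a convex polygon, counterclockwise: every other vertex lies strictly to
the left of every directed side. -/
def IsConvexPoly {N : ℕ} (P : Fin (N + 3) → ℝ × ℝ) : Prop :=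
  ∀ i j, j ≠ i → j ≠ i + 1 → 0 < det3 (P i) (P (i + 1)) (P j)

/-- Pairs (side of `P`, side of `Q`) of crossing type: the line of each side does not separate the
endpoints of the other side. -/
noncomputable def crossPairs {N M : ℕ} (P : Fin (N + 3) → ℝ × ℝ) (Q : Fin (M + 3) → ℝ × ℝ) :
    Finset (Fin (N + 3) × Fin (M + 3)) :=
  Finset.univ.filter fun ij =>
    pos (P ij.1) (P (ij.1 + 1)) (Q ij.2) = pos (P ij.1) (P (ij.1 + 1)) (Q (ij.2 + 1)) ∧
    pos (Q ij.2) (Q (ij.2 + 1)) (P ij.1) = pos (Q ij.2) (Q (ij.2 + 1)) (P (ij.1 + 1))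

/-- The two polygon lemma. -/
def TwoPolyStatement : Prop :=
  ∀ (N M : ℕ) (P : Fin (N + 3) → ℝ × ℝ) (Q : Fin (M + 3) → ℝ × ℝ),
    IsConvexPoly P → IsConvexPoly Q → NoThreeCollinear (Sum.elim P Q) →
      (N + 1) * (M + 1) ≤ (crossPairs P Q).card

/-- The decomposition statement: the pairs of an odd point set contain edge disjoint convex polygons
with total excess the Zarankiewicz number. -/
def DecompStatement : Prop :=
  ∀ (k : ℕ) (c : Fin (2 * k + 1) → ℝ × ℝ), NoThreeCollinear c →
    ∃ (ι : Type) (_ : Fintype ι) (n : ι → ℕ) (v : ∀ t, Fin (n t + 3) → Fin (2 * k + 1)),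
      (∀ t, IsConvexPoly (c ∘ v t)) ∧
      Function.Injective (fun x : (Σ t, Fin (n t + 3)) => s(v x.1 x.2, v x.1 (x.2 + 1))) ∧
      ∑ t, (n t + 1) = dd (2 * k + 1)

end Vale.Agent.P040D
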