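import Vale.Agent.Lib.P040D.Decomp
import Vale.Agent.Lib.P040D.Iface

/-!
The decomposition for an arbitrary odd point set in general position: shear so that the heights
are distinct, sort by height, apply the decomposition at the level of indices.
-/

namespace Vale.Agent.P040D

open Finset
open Vale.Agent.P040

/-- A shear making a linear functional injective. -/
theorem exists_shear {m : ℕ} (c : Fin m → ℝ × ℝ) (hinj : Function.Injective c) :
    ∃ l : ℝ, Function.Injective (fun x => (c x).2 + l * (c x).1) := by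
  classical
  let S : Finset ℝ := (univ : Finset (Fin m × Fin m)).image
    (fun p => -((c p.1).2 - (c p.2).2) / ((c p.1).1 - (c p.2).1))
  obtain ⟨l, hl⟩ := Infinite.exists_notMem_finset S
  refine ⟨l, ?_⟩
  intro x y hxy
  simp only at hxy
  by_contra hne
  by_cases h0 : (c x).1 - (c y).1 = 0
  · have h1 : (c x).1 = (c y).1 := by linarith
    have h2 : (c x).2 = (c y).2 := by
      rw [h1] at hxy
      linarith
    exact hne (hinj (Prod.ext h1 h2))
  · apply hl
    simp only [S, Finset.mem_image, Finset.mem_univ, true_and]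
    refine ⟨(x, y), ?_⟩
    simp only
    field_simp
    linarith

theorem exists_sort {m : ℕ} (h : Fin m → ℝ) (hinj : Function.Injective h) :
    ∃ π : Equiv.Perm (Fin m), StrictMono (h ∘ π) :=
  ⟨Tuple.sort h, (Tuple.monotone_sort h).strictMono_of_injective (hinj.comp (Tuple.sort h).injective)⟩

/-- Shear map. -/
def shear (l : ℝ) (p : ℝ × ℝ) : ℝ × ℝ := (p.1, p.2 + l * p.1)

theorem det3_shear (l : ℝ) (p q r : ℝ × ℝ) : det3 (shear l p) (shear l q) (shear l r) = det3 p q r := by
  unfold det3 shear
  ring

theorem ofNat_val_of_lt {m : ℕ} [NeZero m] {a : ℕ} (ha : a < m) : (Fin.ofNat m a).val = a := by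
  simp [Fin.ofNat, Nat.mod_eq_of_lt ha]

theorem two_mul_length_allPairs (m : ℕ) : 2 * (allPairs m).length = m * (m - 1) := by
  have h1 : (allPairs m).length =
      ∑ y ∈ range m, ((range m).filter fun x => x < y).card := by
    unfold allPairs
    rw [Finset.length_toList, Finset.card_filter, Finset.sum_product_right]
    refine Finset.sum_congr rfl fun y _ => ?_
    rw [Finset.card_filter]
  have h2 : ∑ y ∈ range m, ((range m).filter fun x => x < y).card = ∑ y ∈ range m, y := by
    refine Finset.sum_congr rfl fun y hy => ?_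
    have hy' := Finset.mem_range.1 hy
    have : (range m).filter (fun x => x < y) = range y := by
      ext x
      simp only [Finset.mem_filter, Finset.mem_range]
      omega
    rw [this, Finset.card_range]
  rw [h1, h2]
  have := Finset.sum_range_id_mul_two m
  omega

theorem sum_allPairs_le_one {m : ℕ} (G : ℕ → ℕ → ℕ) (hle : ∀ x y, G x y ≤ 1)
    (huniq : ∀ x y x' y', x < y → y < m → x' < y' → y' < m → G x y = 1 → G x' y' = 1 →
      x = x' ∧ y = y') :
    ((allPairs m).map fun e => G e.1 e.2).sum ≤ 1 := by
  classical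
  unfold allPairs
  rw [Finset.sum_map_toList]
  have h1 : ∑ e ∈ ((range m ×ˢ range m).filter fun p => p.1 < p.2), G e.1 e.2 =
      (((range m ×ˢ range m).filter fun p => p.1 < p.2).filter fun e => G e.1 e.2 = 1).card := by
    rw [Finset.card_filter]
    refine Finset.sum_congr rfl fun e _ => ?_
    have := hle e.1 e.2
    by_cases h : G e.1 e.2 = 1
    · simp [h]
    · have h0 : G e.1 e.2 = 0 := by omega
      simp [h0]
  rw [h1]
  rw [Finset.card_le_one]
  rintro ⟨a, b⟩ ha ⟨a', b'⟩ hb
  simp only [Finset.mem_filter, Finset.mem_product, Finset.mem_range] at ha hb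
  obtain ⟨rfl, rfl⟩ := huniq a b a' b' ha.1.2 ha.1.1.2 hb.1.2 hb.1.1.2 ha.2 hb.2
  rfl

/-- The decomposition statement. -/
theorem decompStatement : DecompStatement := by
  classical
  intro k c hgp
  have hinj : Function.Injective c := by
    intro x y hxy
    by_contra hne
    obtain ⟨z, hzx, hzy⟩ : ∃ z : Fin (2 * k + 1), z ≠ x ∧ z ≠ y := by
      have hcard : 2 < Fintype.card (Fin (2 * k + 1)) ∨ k = 0 := by
        rw [Fintype.card_fin]
        omega
      rcases hcard with hc | hk
      · have h2 : ({x, y} : Finset (Fin (2 * k + 1))).card < Fintype.card (Fin (2 * k + 1)) :=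
          lt_of_le_of_lt Finset.card_le_two hc
        obtain ⟨z, hz⟩ := Finset.exists_mem_notMem_of_card_lt_card
          (s := ({x, y} : Finset (Fin (2 * k + 1)))) (t := univ) (by simpa using h2)
        refine ⟨z, ?_, ?_⟩
        · intro h
          exact hz.2 (by simp [h])
        · intro h
          exact hz.2 (by simp [h])
      · subst hk
        exact absurd (Fin.ext (by have := x.isLt; have := y.isLt; omega)) hne
    have h1 := hgp x y z hne (Ne.symm hzy) (Ne.symm hzx)
    apply h1
    unfold det3
    rw [hxy]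
    ring
  obtain ⟨l, hl⟩ := exists_shear c hinj
  obtain ⟨π, hπ⟩ := exists_sort _ hl
  let c' : ℕ → ℝ × ℝ := fun a => shear l (c (π (Fin.ofNat (2 * k + 1) a)))
  have hofNat_lt : ∀ a b, a < b → b < 2 * k + 1 → Fin.ofNat (2 * k + 1) a < Fin.ofNat (2 * k + 1) b := by
    intro a b hab hb
    rw [Fin.lt_def, ofNat_val_of_lt (by omega), ofNat_val_of_lt hb]
    exact hab
  have hofNat_ne : ∀ a b, a < 2 * k + 1 → b < 2 * k + 1 → a ≠ b → Fin.ofNat (2 * k + 1) a ≠ Fin.ofNat (2 * k + 1) b := by
    intro a b ha hb hab h
    apply hab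
    have := congrArg Fin.val h
    rwa [ofNat_val_of_lt ha, ofNat_val_of_lt hb] at this
  have hS : Sorted (2 * k + 1) c' := by
    refine ⟨?_, ?_⟩
    · intro a b hab hb
      exact hπ (hofNat_lt a b hab hb)
    · intro a b d ha hb hd h1 h2 h3
      simp only [c', det3_shear]
      exact hgp _ _ _ (fun h => hofNat_ne a b ha hb h1 (π.injective h))
        (fun h => hofNat_ne b d hb hd h2 (π.injective h))
        (fun h => hofNat_ne a d ha hd h3 (π.injective h))
  obtain ⟨V, N, hN, hclosed, hconv, hsum, hW⟩ := decomp_nat hS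
  let ι : Type := {t // t ∈ longPairs k}
  let n : ι → ℕ := fun t => N t.1 - 3
  have hn : ∀ t : ι, n t + 3 = N t.1 := by
    intro t
    have := hN t.1 t.2
    simp only [n]
    omega
  let v : ∀ t : ι, Fin (n t + 3) → Fin (2 * k + 1) := fun t i => π (Fin.ofNat (2 * k + 1) (V t.1 i.val))
  have hval : ∀ t : ι, ∀ i : Fin (n t + 3), V t.1 ((i + 1 : Fin (n t + 3)).val) = V t.1 (i.val + 1) := by
    intro t i
    have hi := i.isLt
    by_cases h : i.val + 1 = n t + 3
    · have h1 : (i + 1 : Fin (n t + 3)).val = 0 := by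
        rw [Fin.val_add, show ((1 : Fin (n t + 3)).val) = 1 from rfl, h, Nat.mod_self]
      rw [h1, h, hn, hclosed t.1 t.2]
    · have h1 : (i + 1 : Fin (n t + 3)).val = i.val + 1 := by
        rw [Fin.val_add, show ((1 : Fin (n t + 3)).val) = 1 from rfl]
        exact Nat.mod_eq_of_lt (by omega)
      rw [h1]
  have hsucc : ∀ t : ι, ∀ i : Fin (n t + 3), v t (i + 1) = π (Fin.ofNat (2 * k + 1) (V t.1 (i.val + 1))) := by
    intro t i
    simp only [v, hval]
  -- the sum formula
  have hF : ∀ F : Fin (2 * k + 1) → Fin (2 * k + 1) → ℕ, (∀ x y, F x y = F y x) →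
      ∑ t : ι, ∑ i : Fin (n t + 3), F (v t i) (v t (i + 1)) =
        ((allPairs (2 * k + 1)).map fun e => F (π (Fin.ofNat (2 * k + 1) e.1)) (π (Fin.ofNat (2 * k + 1) e.2))).sum := by
    intro F hFs
    have h1 := hsum (fun p q => F (π (Fin.ofNat (2 * k + 1) p)) (π (Fin.ofNat (2 * k + 1) q))) (fun x y => hFs _ _)
    rw [← h1, ← Finset.sum_coe_sort (longPairs k)]
    refine Finset.sum_congr rfl fun t _ => ?_
    have h2 : ∀ i : Fin (n t + 3), F (v t i) (v t (i + 1)) =
        (fun i' => F (π (Fin.ofNat (2 * k + 1) (V t.1 i'))) (π (Fin.ofNat (2 * k + 1) (V t.1 (i' + 1))))) i.val := by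
      intro i
      rw [hsucc]
    simp only [h2]
    rw [Fin.sum_univ_eq_sum_range
      (fun i' => F (π (Fin.ofNat (2 * k + 1) (V t.1 i'))) (π (Fin.ofNat (2 * k + 1) (V t.1 (i' + 1))))) (n t + 3), hn]
  have hconvF : ∀ t, IsConvexPoly (c ∘ v t) := by
    intro t i j hji hji1
    have h1 := hconv t.1 t.2 i.val j.val (by rw [← hn]; exact i.isLt) (by rw [← hn]; exact j.isLt)
      (fun h => hji (Fin.ext h)) ?_ ?_
    · simp only [c', det3_shear] at h1
      simp only [Function.comp, hsucc]
      exact h1
    · intro h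
      apply hji1
      apply Fin.ext
      rw [Fin.val_add, show ((1 : Fin (n t + 3)).val) = 1 from rfl, ← h]
      exact (Nat.mod_eq_of_lt j.isLt).symm
    · intro h h0
      apply hji1
      apply Fin.ext
      rw [Fin.val_add, show ((1 : Fin (n t + 3)).val) = 1 from rfl, h, ← hn, Nat.mod_self, h0]
  refine ⟨ι, inferInstance, n, v, hconvF, ?_, ?_⟩
  · -- the sides are distinct
    rintro ⟨t, i⟩ ⟨t', i'⟩ hside
    simp only at hside
    by_contra hne
    set A := v t i with hA
    set B := v t (i + 1) with hB
    have hAB : A ≠ B := by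
      intro h
      have hne1 : (i + 1 + 1 : Fin (n t + 3)) ≠ i := by
        intro h2
        have h3 := congrArg Fin.val h2
        have hi := i.isLt
        rw [add_assoc, Fin.val_add, Fin.val_add] at h3
        simp only [show ((1 : Fin (n t + 3)).val) = 1 from rfl] at h3
        rw [Nat.mod_eq_of_lt (show 1 + 1 < n t + 3 by omega)] at h3
        by_cases h4 : i.val + 2 < n t + 3
        · rw [Nat.mod_eq_of_lt (by omega)] at h3
          omega
        · have h5 : i.val + (1 + 1) = (i.val + 2 - (n t + 3)) + (n t + 3) := by omega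
          rw [h5, Nat.add_mod_right, Nat.mod_eq_of_lt (by omega)] at h3
          omega
      have hne2 : (i + 1 + 1 : Fin (n t + 3)) ≠ i + 1 := by
        intro h2
        simp at h2
      have hpos := hconvF t i (i + 1 + 1) hne1 hne2
      simp only [Function.comp] at hpos
      rw [← hA, ← hB, ← h] at hpos
      have h0 : det3 (c A) (c A) (c (v t (i + 1 + 1))) = 0 := by unfold det3; ring
      linarith
    let F : Fin (2 * k + 1) → Fin (2 * k + 1) → ℕ := fun a b => if s(a, b) = s(A, B) then 1 else 0
    have hFs : ∀ x y, F x y = F y x := by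
      intro x y
      simp only [F, Sym2.eq_swap]
    have h1 := hF F hFs
    have h2 : ((allPairs (2 * k + 1)).map fun e => F (π (Fin.ofNat (2 * k + 1) e.1)) (π (Fin.ofNat (2 * k + 1) e.2))).sum ≤ 1 := by
      apply sum_allPairs_le_one (m := 2 * k + 1)
        (G := fun p q => F (π (Fin.ofNat (2 * k + 1) p)) (π (Fin.ofNat (2 * k + 1) q)))
      · intro x y
        simp only [F]
        split_ifs <;> omega
      · intro x y x' y' hxy hy hxy' hy' hG hG'
        simp only [F] at hG hG'
        have e1 : s(π (Fin.ofNat (2 * k + 1) x), π (Fin.ofNat (2 * k + 1) y)) = s(A, B) := by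
          by_contra hcon
          rw [if_neg hcon] at hG
          omega
        have e2 : s(π (Fin.ofNat (2 * k + 1) x'), π (Fin.ofNat (2 * k + 1) y')) = s(A, B) := by
          by_contra hcon
          rw [if_neg hcon] at hG'
          omega
        rw [← e2] at e1
        rw [Sym2.eq_iff] at e1
        have inj : ∀ a b, a < 2 * k + 1 → b < 2 * k + 1 → π (Fin.ofNat (2 * k + 1) a) = π (Fin.ofNat (2 * k + 1) b) → a = b := by
          intro a b ha hb hab
          by_contra hne'
          exact hofNat_ne a b ha hb hne' (π.injective hab)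
        rcases e1 with ⟨e3, e4⟩ | ⟨e3, e4⟩
        · exact ⟨inj _ _ (by omega) (by omega) e3, inj _ _ hy hy' e4⟩
        · have e5 := inj _ _ (by omega) hy' e3
          have e6 := inj _ _ hy (by omega) e4
          omega
    have h3 : 2 ≤ ∑ t : ι, ∑ i : Fin (n t + 3), F (v t i) (v t (i + 1)) := by
      rw [← Fintype.sum_sigma' (fun t i => F (v t i) (v t (i + 1)))]
      have h4 : ∑ x ∈ ({⟨t, i⟩, ⟨t', i'⟩} : Finset (Σ t : ι, Fin (n t + 3))),
          F (v x.1 x.2) (v x.1 (x.2 + 1)) = 2 := by
        rw [Finset.sum_pair hne]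
        simp only [F]
        rw [if_pos rfl, if_pos hside.symm]
      calc 2 = _ := h4.symm
        _ ≤ _ := Finset.sum_le_sum_of_subset (Finset.subset_univ _)
    omega
  · -- the count
    have h1 := hF (fun _ _ => 1) (fun _ _ => rfl)
    simp only [Finset.sum_const, Finset.card_univ, Fintype.card_fin, smul_eq_mul, mul_one,
      List.map_const', List.sum_replicate] at h1
    have h2 := two_mul_length_allPairs (2 * k + 1)
    have h3 : ∑ t : ι, (n t + 3) = ∑ t : ι, (n t + 1) + 2 * (longPairs k).card := by
      have : ∀ t : ι, n t + 3 = (n t + 1) + 2 := fun t => rfl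
      simp only [this]
      rw [Finset.sum_add_distrib, Finset.sum_const, Finset.card_univ, Fintype.card_coe]
      simp only [smul_eq_mul]
      ring
    rw [dd_odd]
    have h4 : (2 * k + 1) * (2 * k + 1 - 1) = (2 * k + 1) * (2 * k) := by
      simp
    nlinarith

end Vale.Agent.P040D
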