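import Vale.Agent.Lib.P040D.Iface

/-!
Final assembly of the polygon route: tuples of crossing type from pairs of polygon sides,
deletion counting for even class sizes, removal of the general position assumption.
-/

namespace Vale.Agent.P040D

open Vale.Agent.P040 Finset Filter Topology

theorem val_two_fin (N : ℕ) : ((2 : Fin (N + 3)) : ℕ) = 2 := by
  show 2 % (N + 3) = 2
  exact Nat.mod_eq_of_lt (by omega)

theorem val_one_fin (N : ℕ) : ((1 : Fin (N + 3)) : ℕ) = 1 := by
  show 1 % (N + 3) = 1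
  exact Nat.mod_eq_of_lt (by omega)

theorem mem_tupleSet {m n : ℕ} (R : Fin m → ℝ × ℝ) (B : Fin n → ℝ × ℝ)
    (t : (Fin m × Fin m) × (Fin n × Fin n)) :
    t ∈ tupleSet R B ↔ t.1.1 < t.1.2 ∧ t.2.1 < t.2.2 ∧
      crossBit (chiOf R B) (Sum.inl t.1.1) (Sum.inl t.1.2) (Sum.inr t.2.1) (Sum.inr t.2.2) = true := by
  simp [tupleSet]

theorem two_ne_zero_fin (N : ℕ) : (2 : Fin (N + 3)) ≠ 0 := by
  intro h
  have := congrArg Fin.val h
  rw [val_two_fin] at this
  simp at this

theorem two_ne_one_fin (N : ℕ) : (2 : Fin (N + 3)) ≠ 1 := by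
  intro h
  have := congrArg Fin.val h
  rw [val_two_fin, val_one_fin] at this
  omega

theorem add_two_ne {N : ℕ} (i : Fin (N + 3)) : i + 2 ≠ i := by
  intro h
  exact two_ne_zero_fin N (add_eq_left.1 h)

theorem add_two_ne_one {N : ℕ} (i : Fin (N + 3)) : i + 2 ≠ i + 1 := by
  intro h
  exact two_ne_one_fin N (add_left_cancel h)

theorem IsConvexPoly.inj {N : ℕ} {P : Fin (N + 3) → ℝ × ℝ} (h : IsConvexPoly P) :
    Function.Injective P := by
  intro i j hij
  by_contra hne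
  by_cases hj : j = i + 1
  · subst hj
    have := h i (i + 2) (add_two_ne i) (add_two_ne_one i)
    rw [← hij] at this
    simp [det3] at this
  · have := h i j (Ne.symm hne) hj
    rw [← hij] at this
    simp only [det3] at this
    nlinarith

/-- A pair written in increasing order. -/
def ord {α : Type*} [LinearOrder α] (a b : α) : α × α := (min a b, max a b)

theorem ord_sym2 {α : Type*} [LinearOrder α] {a b c d : α} (h : ord a b = ord c d) :
    s(a, b) = s(c, d) := by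
  have key : ∀ x y : α, s(x, y) = s(min x y, max x y) := by
    intro x y
    rcases le_total x y with hxy | hxy
    · simp [min_eq_left hxy, max_eq_right hxy]
    · simp [min_eq_right hxy, max_eq_left hxy, Sym2.eq_swap]
  simp only [ord, Prod.mk.injEq] at h
  rw [key a b, key c d, h.1, h.2]

theorem crossBit_ord {m n : ℕ} {χ : Fin m ⊕ Fin n → Fin m ⊕ Fin n → Fin m ⊕ Fin n → Bool}
    (hχ : IsChi χ) {x y : Fin m} {j j' : Fin n} (hxy : x ≠ y) (hj : j ≠ j')
    (h : crossBit χ (Sum.inl x) (Sum.inl y) (Sum.inr j) (Sum.inr j') = true) :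
    crossBit χ (Sum.inl (ord x y).1) (Sum.inl (ord x y).2)
      (Sum.inr (ord j j').1) (Sum.inr (ord j j').2) = true := by
  have a1 : crossBit χ (Sum.inl x) (Sum.inl y) (Sum.inr j) (Sum.inr j') =
      crossBit χ (Sum.inl y) (Sum.inl x) (Sum.inr j) (Sum.inr j') :=
    (crossBit_swap_uv hχ (u := Sum.inl x) (v := Sum.inl y) (x := Sum.inr j) (y := Sum.inr j')
      (by simpa using hxy) (by simp) (by simp) (by simp) (by simp)).symm
  have a2 : ∀ x y : Fin m, x ≠ y →
      crossBit χ (Sum.inl x) (Sum.inl y) (Sum.inr j) (Sum.inr j') =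
      crossBit χ (Sum.inl x) (Sum.inl y) (Sum.inr j') (Sum.inr j) := fun x y _ =>
    (crossBit_swap_xy hχ (u := Sum.inl x) (v := Sum.inl y) (x := Sum.inr j) (y := Sum.inr j')
      (by simpa using hj) (by simp) (by simp) (by simp) (by simp)).symm
  rcases le_total x y with hl | hl <;> rcases le_total j j' with hl' | hl' <;>
    simp only [ord, min_eq_left hl, max_eq_right hl, min_eq_right hl, max_eq_left hl,
      min_eq_left hl', max_eq_right hl', min_eq_right hl', max_eq_left hl']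
  · exact h
  · rw [← a2 x y hxy]; exact h
  · rw [← a1]; exact h
  · rw [← a2 y x (Ne.symm hxy), ← a1]; exact h

theorem ord_lt {α : Type*} [LinearOrder α] {a b : α} (h : a ≠ b) : (ord a b).1 < (ord a b).2 := by
  simp only [ord]
  rcases lt_or_gt_of_ne h with h1 | h1
  · simp [h1, h1.le]
  · simp [h1, h1.le]

theorem ncl_comp {m n m' n' : ℕ} {R : Fin m → ℝ × ℝ} {B : Fin n → ℝ × ℝ}
    (hgp : NoThreeCollinear (Sum.elim R B)) {v : Fin m' → Fin m} {w : Fin n' → Fin n}
    (hv : Function.Injective v) (hw : Function.Injective w) :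
    NoThreeCollinear (Sum.elim (R ∘ v) (B ∘ w)) := by
  intro a b c hab hbc hac
  have hinj : Function.Injective (Sum.map v w) := Function.Injective.sumMap hv hw
  have key : ∀ a, Sum.elim (R ∘ v) (B ∘ w) a = Sum.elim R B (Sum.map v w a) := by
    rintro (a | a) <;> rfl
  rw [key, key, key]
  exact hgp _ _ _ (hinj.ne hab) (hinj.ne hbc) (hinj.ne hac)

/-- The odd case. -/
theorem odd_odd (hTwo : TwoPolyStatement) (hDec : DecompStatement) {k l : ℕ}
    (R : Fin (2 * k + 1) → ℝ × ℝ) (B : Fin (2 * l + 1) → ℝ × ℝ)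
    (hgp : NoThreeCollinear (Sum.elim R B)) :
    dd (2 * k + 1) * dd (2 * l + 1) ≤ (tupleSet R B).card := by
  classical
  have hχ : IsChi (chiOf R B) := isChi_of_ncl (Sum.elim R B) hgp
  have hR : NoThreeCollinear R := fun i j t hij hjt hit =>
    hgp (Sum.inl i) (Sum.inl j) (Sum.inl t) (by simpa using hij) (by simpa using hjt)
      (by simpa using hit)
  have hB : NoThreeCollinear B := fun i j t hij hjt hit =>
    hgp (Sum.inr i) (Sum.inr j) (Sum.inr t) (by simpa using hij) (by simpa using hjt)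
      (by simpa using hit)
  obtain ⟨ι, _, n, v, hv, hvinj, hvsum⟩ := hDec k R hR
  obtain ⟨ι', _, n', w, hw, hwinj, hwsum⟩ := hDec l B hB
  have hvI : ∀ t, Function.Injective (v t) := fun t =>
    Function.Injective.of_comp (f := R) (hv t).inj
  have hwI : ∀ t, Function.Injective (w t) := fun t =>
    Function.Injective.of_comp (f := B) (hw t).inj
  let T : Finset (Σ tt : ι × ι', Fin (n tt.1 + 3) × Fin (n' tt.2 + 3)) :=
    (univ : Finset (ι × ι')).sigma (fun tt => crossPairs (R ∘ v tt.1) (B ∘ w tt.2))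
  let Φ : (Σ tt : ι × ι', Fin (n tt.1 + 3) × Fin (n' tt.2 + 3)) →
      (Fin (2 * k + 1) × Fin (2 * k + 1)) × (Fin (2 * l + 1) × Fin (2 * l + 1)) :=
    fun x => (ord (v x.1.1 x.2.1) (v x.1.1 (x.2.1 + 1)), ord (w x.1.2 x.2.2) (w x.1.2 (x.2.2 + 1)))
  have hinj : Set.InjOn Φ T := by
    rintro ⟨⟨t, t'⟩, ⟨i, j⟩⟩ _ ⟨⟨t2, t2'⟩, ⟨i2, j2⟩⟩ _ heq
    simp only [Φ, Prod.mk.injEq] at heq
    have e1 := hvinj (a₁ := ⟨t, i⟩) (a₂ := ⟨t2, i2⟩) (ord_sym2 heq.1)
    have e2 := hwinj (a₁ := ⟨t', j⟩) (a₂ := ⟨t2', j2⟩) (ord_sym2 heq.2)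
    obtain ⟨rfl, h1⟩ := Sigma.mk.inj_iff.1 e1
    obtain ⟨rfl, h2⟩ := Sigma.mk.inj_iff.1 e2
    cases h1
    cases h2
    rfl
  have hmaps : ∀ x ∈ T, Φ x ∈ tupleSet R B := by
    rintro ⟨⟨t, t'⟩, ⟨i, j⟩⟩ hx
    have hx' : (i, j) ∈ crossPairs (R ∘ v t) (B ∘ w t') := by
      simpa [T] using hx
    simp only [crossPairs, Finset.mem_filter, Finset.mem_univ, true_and, Function.comp] at hx'
    have hi : v t i ≠ v t (i + 1) := (hvI t).ne (by
      intro h
      have := congrArg Fin.val (add_eq_left.1 h.symm)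
      simp at this)
    have hj : w t' j ≠ w t' (j + 1) := (hwI t').ne (by
      intro h
      have := congrArg Fin.val (add_eq_left.1 h.symm)
      simp at this)
    have hc : crossBit (chiOf R B) (Sum.inl (v t i)) (Sum.inl (v t (i + 1)))
        (Sum.inr (w t' j)) (Sum.inr (w t' (j + 1))) = true := by
      simp only [crossBit, chiOf, Sum.elim_inl, Sum.elim_inr, Bool.and_eq_true, beq_iff_eq]
      exact hx'
    simp only [tupleSet, Finset.mem_filter, Finset.mem_univ, true_and, Φ]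
    exact ⟨ord_lt hi, ord_lt hj, crossBit_ord hχ hi hj hc⟩
  have h1 := Finset.card_le_card_of_injOn Φ hmaps hinj
  have h2 : T.card = ∑ tt : ι × ι', (crossPairs (R ∘ v tt.1) (B ∘ w tt.2)).card :=
    Finset.card_sigma _ _
  have h3 : ∀ tt : ι × ι', (n tt.1 + 1) * (n' tt.2 + 1) ≤
      (crossPairs (R ∘ v tt.1) (B ∘ w tt.2)).card := fun tt =>
    hTwo _ _ _ _ (hv tt.1) (hw tt.2) (ncl_comp hgp (hvI tt.1) (hwI tt.2))
  calc dd (2 * k + 1) * dd (2 * l + 1)
      = (∑ t, (n t + 1)) * (∑ t', (n' t' + 1)) := by rw [hvsum, hwsum]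
    _ = ∑ tt : ι × ι', (n tt.1 + 1) * (n' tt.2 + 1) := by
        rw [Finset.sum_mul_sum, ← Finset.univ_product_univ, Finset.sum_product]
    _ ≤ ∑ tt : ι × ι', (crossPairs (R ∘ v tt.1) (B ∘ w tt.2)).card :=
        Finset.sum_le_sum fun tt _ => h3 tt
    _ = T.card := h2.symm
    _ ≤ _ := h1

/-- Deleting one red vertex: each tuple survives for all but two deleted vertices. -/
theorem del_red {m n : ℕ} (R : Fin (m + 1) → ℝ × ℝ) (B : Fin n → ℝ × ℝ) :
    ∑ z : Fin (m + 1), (tupleSet (R ∘ z.succAbove) B).card ≤ (m + 1 - 2) * (tupleSet R B).card := by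
  classical
  have h1 : ∀ z : Fin (m + 1), (tupleSet (R ∘ z.succAbove) B).card ≤
      ((tupleSet R B).filter fun t => z ≠ t.1.1 ∧ z ≠ t.1.2).card := by
    intro z
    refine Finset.card_le_card_of_injOn
      (fun t => ((z.succAbove t.1.1, z.succAbove t.1.2), t.2)) ?_ ?_
    · rintro ⟨⟨x, y⟩, ⟨j, j'⟩⟩ ht
      simp only [tupleSet, Finset.coe_filter, Finset.mem_univ, true_and, Set.mem_ofPred_eq,
        Finset.mem_filter] at ht ⊢
      refine ⟨⟨(Fin.strictMono_succAbove z) ht.1, ht.2.1, ht.2.2⟩, ?_, ?_⟩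
      · exact (Fin.succAbove_ne z x).symm
      · exact (Fin.succAbove_ne z y).symm
    · rintro ⟨⟨x, y⟩, ⟨j, j'⟩⟩ _ ⟨⟨x2, y2⟩, ⟨j2, j2'⟩⟩ _ heq
      simp only [Prod.mk.injEq] at heq
      obtain ⟨⟨e1, e2⟩, e3, e4⟩ := heq
      have e1' := (Fin.strictMono_succAbove z).injective e1
      have e2' := (Fin.strictMono_succAbove z).injective e2
      subst e1' e2' e3 e4
      rfl
  have h2 : ∑ z : Fin (m + 1), ((tupleSet R B).filter fun t => z ≠ t.1.1 ∧ z ≠ t.1.2).card =
      ∑ t ∈ tupleSet R B, (univ.filter fun z : Fin (m + 1) => z ≠ t.1.1 ∧ z ≠ t.1.2).card := by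
    simp only [Finset.card_filter]
    rw [Finset.sum_comm]
  have h3 : ∀ t ∈ tupleSet R B,
      (univ.filter fun z : Fin (m + 1) => z ≠ t.1.1 ∧ z ≠ t.1.2).card = m + 1 - 2 := by
    intro t ht
    simp only [tupleSet, Finset.mem_filter, Finset.mem_univ, true_and] at ht
    have hne : t.1.1 ≠ t.1.2 := ht.1.ne
    have : (univ.filter fun z : Fin (m + 1) => z ≠ t.1.1 ∧ z ≠ t.1.2) =
        univ \ {t.1.1, t.1.2} := by
      ext z
      simp
    rw [this, Finset.card_sdiff_of_subset (Finset.subset_univ _), Finset.card_univ,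
      Fintype.card_fin, Finset.card_pair hne]
  calc ∑ z : Fin (m + 1), (tupleSet (R ∘ z.succAbove) B).card
      ≤ ∑ z : Fin (m + 1), ((tupleSet R B).filter fun t => z ≠ t.1.1 ∧ z ≠ t.1.2).card :=
        Finset.sum_le_sum fun z _ => h1 z
    _ = ∑ t ∈ tupleSet R B, (univ.filter fun z : Fin (m + 1) => z ≠ t.1.1 ∧ z ≠ t.1.2).card := h2
    _ = ∑ _t ∈ tupleSet R B, (m + 1 - 2) := Finset.sum_congr rfl h3
    _ = _ := by rw [Finset.sum_const, smul_eq_mul, mul_comm]

theorem tupleSet_swap {m n : ℕ} (R : Fin m → ℝ × ℝ) (B : Fin n → ℝ × ℝ) :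
    (tupleSet B R).card ≤ (tupleSet R B).card := by
  classical
  refine Finset.card_le_card_of_injOn (fun t => (t.2, t.1)) ?_ ?_
  · rintro ⟨⟨x, y⟩, ⟨j, j'⟩⟩ ht
    rw [Finset.mem_coe, mem_tupleSet] at ht ⊢
    refine ⟨ht.2.1, ht.1, ?_⟩
    have h3 := ht.2.2
    simp only [crossBit, chiOf, Sum.elim_inl, Sum.elim_inr] at h3 ⊢
    rw [Bool.and_comm]
    exact h3
  · rintro ⟨⟨x, y⟩, ⟨j, j'⟩⟩ _ ⟨⟨x2, y2⟩, ⟨j2, j2'⟩⟩ _ heq
    simp only [Prod.mk.injEq] at heq
    obtain ⟨⟨e1, e2⟩, e3, e4⟩ := heq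
    subst e1 e2 e3 e4
    rfl

/-- The statement for class sizes `m, n`. -/
def Pr (m n : ℕ) : Prop :=
  ∀ (R : Fin m → ℝ × ℝ) (B : Fin n → ℝ × ℝ), NoThreeCollinear (Sum.elim R B) →
    dd m * dd n ≤ (tupleSet R B).card

theorem Pr_swap {m n : ℕ} (h : Pr n m) : Pr m n := by
  intro R B hgp
  have hgp' : NoThreeCollinear (Sum.elim B R) := by
    intro a b c hab hbc hac
    have key : ∀ a, Sum.elim B R a = Sum.elim R B (Sum.swap a) := by
      rintro (a | a) <;> rfl
    rw [key, key, key]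
    exact hgp _ _ _ (Sum.swap_leftInverse.injective.ne hab) (Sum.swap_leftInverse.injective.ne hbc)
      (Sum.swap_leftInverse.injective.ne hac)
  have := h B R hgp'
  rw [mul_comm] at this
  exact this.trans (tupleSet_swap R B)

theorem Pr_step {k n : ℕ} (h : Pr (2 * k + 1) n) : Pr (2 * k + 2) n := by
  intro R B hgp
  rcases Nat.eq_zero_or_pos k with rfl | hk
  · simp [dd]
  have h1 := del_red (m := 2 * k + 1) R B
  have h2 : ∀ z : Fin (2 * k + 1 + 1), dd (2 * k + 1) * dd n ≤ (tupleSet (R ∘ z.succAbove) B).card :=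
    fun z => h _ _ (ncl_comp hgp (Fin.strictMono_succAbove z).injective Function.injective_id)
  have h3 : (2 * k + 2) * (dd (2 * k + 1) * dd n) ≤ (2 * k + 1 + 1 - 2) * (tupleSet R B).card := by
    refine le_trans ?_ h1
    have := Finset.card_nsmul_le_sum (univ : Finset (Fin (2 * k + 1 + 1)))
      (fun z => (tupleSet (R ∘ z.succAbove) B).card) (dd (2 * k + 1) * dd n)
      (fun z _ => h2 z)
    simpa using this
  have e1 : 2 * k + 1 + 1 - 2 = 2 * k := by omega
  rw [e1, dd_odd] at h3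
  have e2 : dd (2 * k + 2) = (k + 1) * k := by
    have := dd_even (k + 1)
    rw [show 2 * (k + 1) = 2 * k + 2 by ring] at this
    rw [this]
    simp
  rw [e2]
  have e3 : 2 * k * ((k + 1) * k * dd n) ≤ 2 * k * (tupleSet R B).card := by
    calc 2 * k * ((k + 1) * k * dd n) = (2 * k + 2) * (k * k * dd n) := by ring
      _ ≤ _ := h3
  exact Nat.le_of_mul_le_mul_left e3 (by omega)

theorem Pr_zero_left (n : ℕ) : Pr 0 n := by
  intro R B _
  simp [dd]

theorem Pr_zero_right (m : ℕ) : Pr m 0 := by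
  intro R B _
  simp [dd]

/-- All class sizes, in general position. -/
theorem Pr_all (hTwo : TwoPolyStatement) (hDec : DecompStatement) (m n : ℕ) : Pr m n := by
  have hoo : ∀ k l, Pr (2 * k + 1) (2 * l + 1) := fun k l R B hgp => odd_odd hTwo hDec R B hgp
  have heo : ∀ k l, Pr (2 * k + 2) (2 * l + 1) := fun k l => Pr_step (hoo k l)
  have hoe : ∀ k l, Pr (2 * k + 1) (2 * l + 2) := fun k l => Pr_swap (heo l k)
  have hee : ∀ k l, Pr (2 * k + 2) (2 * l + 2) := fun k l => Pr_step (hoe k l)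
  rcases Nat.even_or_odd' m with ⟨k, rfl | rfl⟩ <;> rcases Nat.even_or_odd' n with ⟨l, rfl | rfl⟩
  · rcases k with _ | k
    · exact Pr_zero_left _
    rcases l with _ | l
    · exact Pr_zero_right _
    exact hee k l
  · rcases k with _ | k
    · exact Pr_zero_left _
    exact heo k l
  · rcases l with _ | l
    · exact Pr_zero_right _
    exact hoe k l
  · exact hoo k l

/-- Disjoint segments stay disjoint under continuous motion of the endpoints. -/
theorem eventually_seg_disjoint {a b c d : ℝ → ℝ × ℝ} (ha : Continuous a) (hb : Continuous b)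
    (hc : Continuous c) (hd : Continuous d)
    (h : ¬ (segment ℝ (a 0) (b 0) ∩ segment ℝ (c 0) (d 0)).Nonempty) :
    ∀ᶠ ε in 𝓝 (0 : ℝ), ¬ (segment ℝ (a ε) (b ε) ∩ segment ℝ (c ε) (d ε)).Nonempty := by
  let C : Set ((unitInterval × unitInterval) × ℝ) := {p |
    (1 - (p.1.1 : ℝ)) • a p.2 + (p.1.1 : ℝ) • b p.2 = (1 - (p.1.2 : ℝ)) • c p.2 + (p.1.2 : ℝ) • d p.2}
  have hC : IsClosed C := by
    apply isClosed_eq
    · fun_prop
    · fun_prop
  have hK : IsClosed (Prod.snd '' C) := isClosedMap_snd_of_compactSpace _ hC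
  have key : ∀ ε, (segment ℝ (a ε) (b ε) ∩ segment ℝ (c ε) (d ε)).Nonempty → ε ∈ Prod.snd '' C := by
    rintro ε ⟨x, hx1, hx2⟩
    rw [segment_eq_image] at hx1 hx2
    obtain ⟨s, hs, rfl⟩ := hx1
    obtain ⟨t, ht, hst⟩ := hx2
    exact ⟨((⟨s, hs⟩, ⟨t, ht⟩), ε), hst.symm, rfl⟩
  have h0 : (0 : ℝ) ∉ Prod.snd '' C := by
    rintro ⟨⟨⟨s, t⟩, ε⟩, hp, rfl⟩
    apply h
    simp only [C, Set.mem_ofPred_eq] at hp
    refine ⟨(1 - (s : ℝ)) • a 0 + (s : ℝ) • b 0, ?_, ?_⟩
    · rw [segment_eq_image]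
      exact ⟨s, s.2, rfl⟩
    · rw [segment_eq_image]
      exact ⟨t, t.2, hp.symm⟩
  filter_upwards [hK.isOpen_compl.mem_nhds h0] with ε hε hne
  exact hε (key ε hne)

theorem ev_quad (c0 c1 c2 : ℝ) (h : c2 ≠ 0) :
    ∀ᶠ ε in 𝓝[>] (0 : ℝ), c0 + c1 * ε + c2 * ε ^ 2 ≠ 0 := by
  by_cases h0 : c0 = 0
  · by_cases h1 : c1 = 0
    · filter_upwards [self_mem_nhdsWithin] with ε hε
      have : (0 : ℝ) < ε := hε
      simp only [h0, h1]
      have : c2 * ε ^ 2 ≠ 0 := by positivity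
      simpa using this
    · have hcont : Continuous fun ε : ℝ => c1 + c2 * ε := by fun_prop
      have hev : ∀ᶠ ε in 𝓝 (0 : ℝ), c1 + c2 * ε ≠ 0 :=
        hcont.continuousAt.eventually_ne (by simpa using h1)
      filter_upwards [self_mem_nhdsWithin, nhdsWithin_le_nhds hev] with ε hε hε2
      have : (0 : ℝ) < ε := hε
      have e : c0 + c1 * ε + c2 * ε ^ 2 = ε * (c1 + c2 * ε) := by rw [h0]; ring
      rw [e]
      exact mul_ne_zero this.ne' hε2
  · have hcont : Continuous fun ε : ℝ => c0 + c1 * ε + c2 * ε ^ 2 := by fun_prop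
    have hev : ∀ᶠ ε in 𝓝 (0 : ℝ), c0 + c1 * ε + c2 * ε ^ 2 ≠ 0 :=
      hcont.continuousAt.eventually_ne (by simpa using h0)
    exact nhdsWithin_le_nhds hev

/-- A small perturbation reaches general position without creating crossings. -/
theorem exists_perturb {m n : ℕ} (R : Fin m → ℝ × ℝ) (B : Fin n → ℝ × ℝ) :
    ∃ (R' : Fin m → ℝ × ℝ) (B' : Fin n → ℝ × ℝ),
      NoThreeCollinear (Sum.elim R' B') ∧ crossings R' B' ≤ crossings R B := by
  classical
  let a : Fin m ⊕ Fin n → ℝ := Sum.elim (fun i => (i : ℕ)) (fun j => (m : ℝ) + (j : ℕ))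
  have ha : Function.Injective a := by
    rintro (i | i) (j | j) h
    · simp only [a, Sum.elim_inl, Nat.cast_inj] at h
      rw [Fin.ext h]
    · simp only [a, Sum.elim_inl, Sum.elim_inr] at h
      have h' : ((i : ℕ) : ℝ) = ((m + (j : ℕ) : ℕ) : ℝ) := by push_cast; exact h
      have := Nat.cast_inj.1 h'
      have := i.2
      omega
    · simp only [a, Sum.elim_inl, Sum.elim_inr] at h
      have h' : ((m + (i : ℕ) : ℕ) : ℝ) = ((j : ℕ) : ℝ) := by push_cast; exact h
      have := Nat.cast_inj.1 h'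
      have := j.2
      omega
    · simp only [a, Sum.elim_inr, add_right_inj, Nat.cast_inj] at h
      rw [Fin.ext h]
  let P : ℝ → Fin m ⊕ Fin n → ℝ × ℝ := fun ε i =>
    ((Sum.elim R B i).1 + ε * a i, (Sum.elim R B i).2 + ε * (a i) ^ 2)
  have hP0 : ∀ i, P 0 i = Sum.elim R B i := by
    intro i
    simp [P]
  have hPc : ∀ i, Continuous fun ε => P ε i := by
    intro i
    simp only [P]
    fun_prop
  have hgen : ∀ᶠ ε in 𝓝[>] (0 : ℝ), NoThreeCollinear (P ε) := by
    have key : ∀ i j k, ∀ᶠ ε in 𝓝[>] (0 : ℝ), i ≠ j → j ≠ k → i ≠ k →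
        det3 (P ε i) (P ε j) (P ε k) ≠ 0 := by
      intro i j k
      by_cases hd : i ≠ j ∧ j ≠ k ∧ i ≠ k
      · obtain ⟨h1, h2, h3⟩ := hd
        have h1' : a j - a i ≠ 0 := sub_ne_zero.2 (ha.ne (Ne.symm h1))
        have h2' : a k - a i ≠ 0 := sub_ne_zero.2 (ha.ne (Ne.symm h3))
        have h3' : a k - a j ≠ 0 := sub_ne_zero.2 (ha.ne (Ne.symm h2))
        have hV := mul_ne_zero (mul_ne_zero h1' h2') h3'
        filter_upwards [ev_quad
          (det3 (Sum.elim R B i) (Sum.elim R B j) (Sum.elim R B k))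
          (((Sum.elim R B j).1 - (Sum.elim R B i).1) * ((a k) ^ 2 - (a i) ^ 2) +
            (a j - a i) * ((Sum.elim R B k).2 - (Sum.elim R B i).2) -
            ((Sum.elim R B j).2 - (Sum.elim R B i).2) * (a k - a i) -
            ((a j) ^ 2 - (a i) ^ 2) * ((Sum.elim R B k).1 - (Sum.elim R B i).1))
          _ hV] with ε hε _ _ _
        have e : det3 (P ε i) (P ε j) (P ε k) =
          det3 (Sum.elim R B i) (Sum.elim R B j) (Sum.elim R B k) +
          (((Sum.elim R B j).1 - (Sum.elim R B i).1) * ((a k) ^ 2 - (a i) ^ 2) +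
            (a j - a i) * ((Sum.elim R B k).2 - (Sum.elim R B i).2) -
            ((Sum.elim R B j).2 - (Sum.elim R B i).2) * (a k - a i) -
            ((a j) ^ 2 - (a i) ^ 2) * ((Sum.elim R B k).1 - (Sum.elim R B i).1)) * ε +
          (a j - a i) * (a k - a i) * (a k - a j) * ε ^ 2 := by
          simp only [det3, P]
          ring
        rw [e]
        exact hε
      · filter_upwards with ε h1 h2 h3
        exact absurd ⟨h1, h2, h3⟩ hd
    unfold NoThreeCollinear
    rw [eventually_all]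
    intro i
    rw [eventually_all]
    intro j
    rw [eventually_all]
    intro k
    exact key i j k
  have hseg : ∀ q : (Fin m × Fin n) × (Fin m × Fin n), ∀ᶠ ε in 𝓝[>] (0 : ℝ),
      (segment ℝ (P ε (Sum.inl q.1.1)) (P ε (Sum.inr q.1.2)) ∩
        segment ℝ (P ε (Sum.inl q.2.1)) (P ε (Sum.inr q.2.2))).Nonempty →
      (segment ℝ (R q.1.1) (B q.1.2) ∩ segment ℝ (R q.2.1) (B q.2.2)).Nonempty := by
    intro q
    by_cases hq : (segment ℝ (R q.1.1) (B q.1.2) ∩ segment ℝ (R q.2.1) (B q.2.2)).Nonempty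
    · filter_upwards with ε _
      exact hq
    · have := eventually_seg_disjoint (hPc (Sum.inl q.1.1)) (hPc (Sum.inr q.1.2))
        (hPc (Sum.inl q.2.1)) (hPc (Sum.inr q.2.2)) (by
          simp only [hP0, Sum.elim_inl, Sum.elim_inr]
          exact hq)
      filter_upwards [nhdsWithin_le_nhds this] with ε hε hne
      exact absurd hne hε
  obtain ⟨ε, h1, h2⟩ := (hgen.and (eventually_all.2 hseg)).exists
  refine ⟨fun i => P ε (Sum.inl i), fun j => P ε (Sum.inr j), ?_, ?_⟩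
  · have e : Sum.elim (fun i => P ε (Sum.inl i)) (fun j => P ε (Sum.inr j)) = P ε := by
      funext i
      cases i <;> rfl
    rw [e]
    exact h1
  · unfold crossings
    apply Set.ncard_le_ncard _ (Set.toFinite _)
    rintro q ⟨q1, q2, q3⟩
    exact ⟨q1, q2, h2 q q3⟩

/-- The main theorem, from the two ingredients. -/
theorem main_of (hTwo : TwoPolyStatement) (hDec : DecompStatement) {m n : ℕ}
    (R : Fin m → ℝ × ℝ) (B : Fin n → ℝ × ℝ) : dd m * dd n ≤ crossings R B := by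
  obtain ⟨R', B', hgp, hle⟩ := exists_perturb R B
  exact ((Pr_all hTwo hDec m n R' B' hgp).trans (tupleSet_card_le R' B' hgp)).trans hle

end Vale.Agent.P040D
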