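import Mathlib

/-!
Token process on a sorted sequence of all pairs: purely combinatorial part of the decomposition
of the complete graph on an odd point set into convex polygons.
-/

namespace Vale.Agent.P040D

open Finset

/-- The points after `x` in the order determined by the processed pairs `E`. -/
def aft (m : ℕ) (E : List (ℕ × ℕ)) (x : ℕ) : Finset ℕ :=
  (range m).filter fun w => (w < x ∧ (w, x) ∈ E) ∨ (x < w ∧ (x, w) ∉ E)

/-- The consecutive pairs of a list. -/
def arcs : List ℕ → List (ℕ × ℕ)
  | [] => []
  | [_] => []
  | x :: y :: l => (x, y) :: arcs (y :: l)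

theorem arcs_append_singleton (p : List ℕ) (u v : ℕ) (h : p.getLast? = some u) :
    arcs (p ++ [v]) = arcs p ++ [(u, v)] := by
  induction p with
  | nil => simp at h
  | cons x l ih =>
    cases l with
    | nil =>
      simp only [List.getLast?_singleton, Option.some.injEq] at h
      subst h
      simp [arcs]
    | cons y l' =>
      have h' : (y :: l').getLast? = some u := by
        simpa [List.getLast?_cons_cons] using h
      have := ih h'
      simp only [List.cons_append, arcs] at this ⊢
      rw [this]

/-- Data of a list of pairs sorted so that each pair is adjacent when it is processed. -/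
structure Good (m : ℕ) (ev : List (ℕ × ℕ)) (L : ℕ × ℕ → Finset ℕ) : Prop where
  nodup : ev.Nodup
  mem : ∀ u v, (u, v) ∈ ev ↔ u < v ∧ v < m
  aft_left : ∀ l₁ l₂ u v, ev = l₁ ++ (u, v) :: l₂ → aft m l₁ v = L (u, v)
  aft_right : ∀ l₁ l₂ u v, ev = l₁ ++ (u, v) :: l₂ → aft m l₁ u = insert v (L (u, v))

section Step

variable {m : ℕ} {E : List (ℕ × ℕ)} {u v x : ℕ}

theorem aft_step_other (hu : x ≠ u) (hv : x ≠ v) : aft m (E ++ [(u, v)]) x = aft m E x := by
  unfold aft
  refine Finset.filter_congr fun w _ => ?_
  have h1 : (w, x) ∈ E ++ [(u, v)] ↔ (w, x) ∈ E := by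
    simp only [List.mem_append, List.mem_singleton, Prod.mk.injEq]
    constructor
    · rintro (h | ⟨_, h⟩)
      · exact h
      · exact absurd h hv
    · exact Or.inl
  have h2 : (x, w) ∈ E ++ [(u, v)] ↔ (x, w) ∈ E := by
    simp only [List.mem_append, List.mem_singleton, Prod.mk.injEq]
    constructor
    · rintro (h | ⟨h, _⟩)
      · exact h
      · exact absurd h hu
    · exact Or.inl
  rw [h1, h2]

theorem aft_step_u (huv : u < v) : aft m (E ++ [(u, v)]) u = (aft m E u).erase v := by
  ext w
  simp only [aft, Finset.mem_filter, Finset.mem_erase, Finset.mem_range, List.mem_append,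
    List.mem_singleton, Prod.mk.injEq, not_or, not_and]
  constructor
  · rintro ⟨hw, h | ⟨h1, h2, h3⟩⟩
    · rcases h with ⟨hl, h | ⟨_, h⟩⟩
      · exact ⟨by omega, hw, Or.inl ⟨hl, h⟩⟩
      · omega
    · refine ⟨fun h => ?_, hw, Or.inr ⟨h1, h2⟩⟩
      exact h3 trivial h
  · rintro ⟨hne, hw, h | ⟨h1, h2⟩⟩
    · exact ⟨hw, Or.inl ⟨h.1, Or.inl h.2⟩⟩
    · exact ⟨hw, Or.inr ⟨h1, h2, fun _ h => hne h⟩⟩

theorem aft_step_v (huv : u < v) (hm : u < m) :
    aft m (E ++ [(u, v)]) v = insert u (aft m E v) := by
  ext w
  simp only [aft, Finset.mem_filter, Finset.mem_insert, Finset.mem_range, List.mem_append,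
    List.mem_singleton, Prod.mk.injEq, not_or, not_and]
  constructor
  · rintro ⟨hw, ⟨hl, h | ⟨h, _⟩⟩ | ⟨h1, h2, h3⟩⟩
    · exact Or.inr ⟨hw, Or.inl ⟨hl, h⟩⟩
    · exact Or.inl h
    · exact Or.inr ⟨hw, Or.inr ⟨h1, h2⟩⟩
  · rintro (rfl | ⟨hw, ⟨hl, h⟩ | ⟨h1, h2⟩⟩)
    · exact ⟨hm, Or.inl ⟨huv, Or.inr (by simp)⟩⟩
    · exact ⟨hw, Or.inl ⟨hl, Or.inl h⟩⟩
    · exact ⟨hw, Or.inr ⟨h1, h2, fun h => by omega⟩⟩

end Step

section Update

variable {I : Type} [DecidableEq I] [Fintype I]

theorem filter_update_other (pos : I → ℕ) (τ : I) (v x : ℕ) (hx : x ≠ pos τ) (hxv : x ≠ v)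
    (P : I → Prop) [DecidablePred P] :
    univ.filter (fun i => Function.update pos τ v i = x ∧ P i) =
      univ.filter (fun i => pos i = x ∧ P i) := by
  refine Finset.filter_congr fun i _ => ?_
  by_cases hi : i = τ
  · subst hi
    simp only [Function.update_self]
    constructor
    · rintro ⟨h, _⟩
      exact absurd h.symm hxv
    · rintro ⟨h, _⟩
      exact absurd h.symm hx
  · rw [Function.update_of_ne hi]

theorem filter_update_from (pos : I → ℕ) (τ : I) (v : ℕ) (hv : v ≠ pos τ)
    (P : I → Prop) [DecidablePred P] :
    univ.filter (fun i => Function.update pos τ v i = pos τ ∧ P i) =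
      (univ.filter (fun i => pos i = pos τ ∧ P i)).erase τ := by
  ext i
  simp only [Finset.mem_filter, Finset.mem_univ, true_and, Finset.mem_erase]
  by_cases hi : i = τ
  · subst hi
    simp [hv]
  · rw [Function.update_of_ne hi]
    simp [hi]

theorem filter_update_to (pos : I → ℕ) (τ : I) (v : ℕ) (hv : v ≠ pos τ)
    (P : I → Prop) [DecidablePred P] :
    (univ.filter (fun i => Function.update pos τ v i = v ∧ P i)).card =
      (univ.filter (fun i => pos i = v ∧ P i)).card + if P τ then 1 else 0 := by
  by_cases hP : P τ
  · have : univ.filter (fun i => Function.update pos τ v i = v ∧ P i) =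
        insert τ (univ.filter (fun i => pos i = v ∧ P i)) := by
      ext i
      simp only [Finset.mem_filter, Finset.mem_univ, true_and, Finset.mem_insert]
      by_cases hi : i = τ
      · subst hi
        simp [hP]
      · rw [Function.update_of_ne hi]
        simp [hi]
    rw [this, Finset.card_insert_of_notMem]
    · simp [hP]
    · simp only [Finset.mem_filter, Finset.mem_univ, true_and, not_and]
      intro h
      exact absurd h.symm hv
  · have : univ.filter (fun i => Function.update pos τ v i = v ∧ P i) =
        univ.filter (fun i => pos i = v ∧ P i) := by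
      refine Finset.filter_congr fun i _ => ?_
      by_cases hi : i = τ
      · subst hi
        simp [hP]
      · rw [Function.update_of_ne hi]
    rw [this]
    simp [hP]

end Update

section Process

set_option linter.unusedSectionVars false

variable {I : Type} [DecidableEq I] [Fintype I]

/-- Invariant of the token process after the processed prefix `E`. -/
structure TS (m k : ℕ) (L : ℕ × ℕ → Finset ℕ) (lab : I → ℕ) (E : List (ℕ × ℕ)) (pos : I → ℕ)
    (path : I → List ℕ) : Prop where
  head : ∀ i, (path i).head? = some (lab i)
  last : ∀ i, (path i).getLast? = some (pos i)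
  pos_lt : ∀ i, pos i < m
  lab_le : ∀ i, lab i ≤ pos i
  card_pos : ∀ x, x < m → (univ.filter fun i => pos i = x).card = (aft m E x).card - k
  card_lt : ∀ x, x < m → ∀ c, c ≤ x → (univ.filter fun i => pos i = x ∧ lab i < c).card =
    min ((aft m E x).card - k) ((aft m E x).filter (· < c)).card
  sub : ∀ i, (arcs (path i)).Sublist E
  sum_arcs : ∑ i, (↑(arcs (path i)) : Multiset (ℕ × ℕ)) =
    ↑(E.filter fun e => k ≤ (L e).card)

variable {m k : ℕ} {L : ℕ × ℕ → Finset ℕ} {lab : I → ℕ} {ev E rest : List (ℕ × ℕ)}
  {pos : I → ℕ} {path : I → List ℕ} {u v : ℕ}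

theorem TS.step (hG : Good m ev L) (hs : ev = E ++ (u, v) :: rest)
    (h : TS m k L lab E pos path) :
    ∃ pos' path', TS m k L lab (E ++ [(u, v)]) pos' path' := by
  have hmem : (u, v) ∈ ev := by rw [hs]; simp
  obtain ⟨huv, hvm⟩ := (hG.mem u v).1 hmem
  have hum : u < m := by omega
  have hE : (u, v) ∉ E := by
    have := hG.nodup
    rw [hs] at this
    intro h'
    exact (List.nodup_append.1 this).2.2 _ h' _ (by simp) rfl
  set Λ := L (u, v) with hΛ
  have aL : aft m E v = Λ := hG.aft_left E rest u v hs
  have aR : aft m E u = insert v Λ := hG.aft_right E rest u v hs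
  have hvΛ : v ∉ Λ := by
    rw [← aL]
    simp [aft]
  have huΛ : u ∉ Λ := by
    rw [← aL]
    simp [aft, hE]
    intro _ h
    omega
  have a1 : aft m (E ++ [(u, v)]) u = Λ := by
    rw [aft_step_u huv, aR, Finset.erase_insert hvΛ]
  have a2 : aft m (E ++ [(u, v)]) v = insert u Λ := by
    rw [aft_step_v huv hum, aL]
  have cR : (aft m E u).card = Λ.card + 1 := by
    rw [aR, Finset.card_insert_of_notMem hvΛ]
  have cL : (aft m E v).card = Λ.card := by rw [aL]
  have c1 : (aft m (E ++ [(u, v)]) u).card = Λ.card := by rw [a1]
  have c2 : (aft m (E ++ [(u, v)]) v).card = Λ.card + 1 := by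
    rw [a2, Finset.card_insert_of_notMem huΛ]
  have fil1 : ∀ c, c ≤ u → ((aft m E u).filter (· < c)).card = (Λ.filter (· < c)).card := by
    intro c hc
    rw [aR, Finset.filter_insert]
    have : ¬ v < c := by omega
    simp [this]
  have fil2 : ∀ c, c ≤ u → ((insert u Λ).filter (· < c)).card = (Λ.filter (· < c)).card := by
    intro c hc
    rw [Finset.filter_insert]
    have : ¬ u < c := by omega
    simp [this]
  have fil3 : ∀ c, u < c → ((insert u Λ).filter (· < c)).card = (Λ.filter (· < c)).card + 1 := by
    intro c hc
    rw [Finset.filter_insert]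
    simp only [hc, if_true]
    rw [Finset.card_insert_of_notMem]
    simp [huΛ]
  by_cases hk : k ≤ Λ.card
  · -- the pair is an arc: one token moves
    have hT : 1 ≤ (univ.filter fun i => pos i = u).card := by
      rw [h.card_pos u hum, cR]
      omega
    have hne : (univ.filter fun i => pos i = u).Nonempty := Finset.card_pos.1 hT
    obtain ⟨τ, hτ, hmax⟩ := Finset.exists_max_image _ lab hne
    simp only [Finset.mem_filter, Finset.mem_univ, true_and] at hτ hmax
    have hvu : v ≠ pos τ := by rw [hτ]; omega
    have hlabτ : lab τ ≤ u := by rw [← hτ]; exact h.lab_le τ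
    refine ⟨Function.update pos τ v, Function.update path τ (path τ ++ [v]), ?_⟩
    -- key facts for the maximal token
    have keyA : ∀ c, c ≤ u → (lab τ < c ↔
        (univ.filter fun i => pos i = u ∧ lab i < c).card =
          (univ.filter fun i => pos i = u).card) := by
      intro c _
      constructor
      · intro hl
        congr 1
        refine Finset.filter_congr fun i _ => ?_
        constructor
        · exact fun hi => hi.1
        · intro hi
          exact ⟨hi, lt_of_le_of_lt (hmax i hi) hl⟩
      · intro hc
        have hsub : (univ.filter fun i => pos i = u ∧ lab i < c) ⊆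
            (univ.filter fun i => pos i = u) := by
          intro i hi
          simp only [Finset.mem_filter, Finset.mem_univ, true_and] at hi ⊢
          exact hi.1
        have heq := Finset.eq_of_subset_of_card_le hsub hc.ge
        have : τ ∈ (univ.filter fun i => pos i = u ∧ lab i < c) := by
          rw [heq]
          simp [hτ]
        simp only [Finset.mem_filter, Finset.mem_univ, true_and] at this
        exact this.2
    have hτmem : ∀ c, lab τ < c → τ ∈ (univ.filter fun i => pos i = u ∧ lab i < c) := by
      intro c hc
      simp [hτ, hc]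
    refine ⟨?_, ?_, ?_, ?_, ?_, ?_, ?_, ?_⟩
    · intro i
      by_cases hi : i = τ
      · subst hi
        simp only [Function.update_self]
        have := h.head i
        cases hp : path i with
        | nil => simp [hp] at this
        | cons a l => simpa [hp] using this
      · simp only [Function.update_of_ne hi]
        exact h.head i
    · intro i
      by_cases hi : i = τ
      · subst hi
        simp
      · simp only [Function.update_of_ne hi]
        exact h.last i
    · intro i
      by_cases hi : i = τ
      · subst hi
        simpa using hvm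
      · simp only [Function.update_of_ne hi]
        exact h.pos_lt i
    · intro i
      by_cases hi : i = τ
      · subst hi
        simp only [Function.update_self]
        omega
      · simp only [Function.update_of_ne hi]
        exact h.lab_le i
    · -- card_pos
      intro x hx
      by_cases hxu : x = u
      · subst hxu
        have := filter_update_from pos τ v hvu (fun _ => True)
        simp only [and_true, hτ] at this
        rw [this, Finset.card_erase_of_mem (by simp [hτ]), h.card_pos x hx, c1, cR]
        omega
      · by_cases hxv : x = v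
        · subst hxv
          have := filter_update_to pos τ x hvu (fun _ => True)
          simp only [and_true, if_true] at this
          rw [this, h.card_pos x hx, c2, cL]
          omega
        · have := filter_update_other pos τ v x (by rw [hτ]; exact hxu) hxv (fun _ => True)
          simp only [and_true] at this
          rw [this, h.card_pos x hx, aft_step_other hxu hxv]
    · -- card_lt
      intro x hx c hc
      by_cases hxu : x = u
      · subst hxu
        have hfil := filter_update_from pos τ v hvu (fun i => lab i < c)
        rw [hτ] at hfil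
        rw [hfil, a1]
        have hA := h.card_lt x hx c hc
        rw [fil1 c hc] at hA
        have hP := h.card_pos x hx
        rw [cR] at hP hA
        have hkA := keyA c hc
        by_cases hl : lab τ < c
        · rw [Finset.card_erase_of_mem (hτmem c hl)]
          have := hkA.1 hl
          omega
        · rw [Finset.erase_eq_of_notMem]
          · have : (univ.filter fun i => pos i = x ∧ lab i < c).card ≠
                (univ.filter fun i => pos i = x).card := fun h' => hl (hkA.2 h')
            omega
          · simp [hl]
      · by_cases hxv : x = v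
        · subst hxv
          rw [filter_update_to pos τ x hvu (fun i => lab i < c), a2,
            Finset.card_insert_of_notMem huΛ]
          have hB := h.card_lt x hx c hc
          rw [aL] at hB
          by_cases hcu : u < c
          · rw [fil3 c hcu]
            have hl : lab τ < c := by omega
            simp only [hl, if_true]
            rw [hB]
            omega
          · have hcu' : c ≤ u := by omega
            rw [fil2 c hcu']
            have hA := h.card_lt u hum c hcu'
            rw [fil1 c hcu'] at hA
            have hP := h.card_pos u hum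
            rw [cR] at hP hA
            have hkA := keyA c hcu'
            by_cases hl : lab τ < c
            · simp only [hl, if_true]
              rw [hB]
              have := hkA.1 hl
              omega
            · simp only [hl, if_false]
              rw [hB]
              have : (univ.filter fun i => pos i = u ∧ lab i < c).card ≠
                (univ.filter fun i => pos i = u).card := fun h' => hl (hkA.2 h')
              omega
        · rw [filter_update_other pos τ v x (by rw [hτ]; exact hxu) hxv, h.card_lt x hx c hc,
            aft_step_other hxu hxv]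
    · intro i
      by_cases hi : i = τ
      · subst hi
        simp only [Function.update_self]
        rw [arcs_append_singleton _ u v (by rw [h.last i, hτ])]
        exact (h.sub i).append_right _
      · simp only [Function.update_of_ne hi]
        exact (h.sub i).trans (List.sublist_append_left _ _)
    · have hsum : ∑ i, (↑(arcs (Function.update path τ (path τ ++ [v]) i)) : Multiset (ℕ × ℕ)) =
          ∑ i, (↑(arcs (path i)) : Multiset (ℕ × ℕ)) + {(u, v)} := by
        rw [← Finset.add_sum_erase _ _ (Finset.mem_univ τ),
          ← Finset.add_sum_erase (Finset.univ) (fun i => (↑(arcs (path i)) : Multiset (ℕ × ℕ)))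
            (Finset.mem_univ τ)]
        have h1 : ∑ i ∈ univ.erase τ,
            (↑(arcs (Function.update path τ (path τ ++ [v]) i)) : Multiset (ℕ × ℕ)) =
            ∑ i ∈ univ.erase τ, (↑(arcs (path i)) : Multiset (ℕ × ℕ)) := by
          refine Finset.sum_congr rfl fun i hi => ?_
          rw [Function.update_of_ne (Finset.ne_of_mem_erase hi)]
        rw [h1, Function.update_self, arcs_append_singleton _ u v (by rw [h.last τ, hτ])]
        rw [← Multiset.coe_add]
        simp only [Multiset.coe_singleton]
        abel
      rw [hsum, h.sum_arcs, List.filter_append, ← Multiset.coe_add]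
      congr 2
      simp [← hΛ, hk]
  · -- not an arc: nothing moves
    have hk' : Λ.card < k := by omega
    refine ⟨pos, path, h.head, h.last, h.pos_lt, h.lab_le, ?_, ?_, ?_, ?_⟩
    · intro x hx
      by_cases hxu : x = u
      · subst hxu
        rw [h.card_pos x hx, c1, cR]
        omega
      · by_cases hxv : x = v
        · subst hxv
          rw [h.card_pos x hx, c2, cL]
          omega
        · rw [h.card_pos x hx, aft_step_other hxu hxv]
    · intro x hx c hc
      by_cases hxu : x = u
      · subst hxu
        have h0 := h.card_lt x hx c hc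
        rw [cR] at h0
        rw [h0, c1]
        omega
      · by_cases hxv : x = v
        · subst hxv
          have h0 := h.card_lt x hx c hc
          rw [cL] at h0
          rw [h0, c2]
          omega
        · rw [h.card_lt x hx c hc, aft_step_other hxu hxv]
    · intro i
      exact (h.sub i).trans (List.sublist_append_left _ _)
    · rw [h.sum_arcs, List.filter_append]
      simp [← hΛ, hk]

theorem aft_nil_card {m x : ℕ} (hx : x < m) : (aft m [] x).card = m - 1 - x := by
  have : aft m [] x = Finset.Ioo x m := by
    ext w
    simp only [aft, Finset.mem_filter, Finset.mem_range, List.not_mem_nil, and_false, false_or,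
      not_false_eq_true, and_true, Finset.mem_Ioo]
    constructor
    · rintro ⟨h1, h2⟩
      exact ⟨h2, h1⟩
    · rintro ⟨h1, h2⟩
      exact ⟨h2, h1⟩
  rw [this, Nat.card_Ioo]
  omega

theorem aft_nil_filter {m x c : ℕ} (hc : c ≤ x) : ((aft m [] x).filter (· < c)).card = 0 := by
  rw [Finset.card_eq_zero, Finset.filter_eq_empty_iff]
  intro w hw
  simp only [aft, Finset.mem_filter, Finset.mem_range, List.not_mem_nil, and_false, false_or,
      not_false_eq_true, and_true] at hw
  omega

theorem aft_full {m x : ℕ} {ev : List (ℕ × ℕ)} {L : ℕ × ℕ → Finset ℕ} (hG : Good m ev L)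
    (hx : x < m) : aft m ev x = range x := by
  ext w
  simp only [aft, Finset.mem_filter, Finset.mem_range, hG.mem, not_and]
  constructor
  · rintro ⟨h1, ⟨h2, _⟩ | ⟨h2, h3⟩⟩
    · exact h2
    · exact absurd (h3 h2) (by omega)
  · intro h
    exact ⟨by omega, Or.inl ⟨h, h, hx⟩⟩

theorem TS.init {k : ℕ} {L : ℕ × ℕ → Finset ℕ} {lab : I → ℕ} (hlt : ∀ i, lab i < 2 * k + 1)
    (hlab : ∀ x, (univ.filter fun i => lab i = x).card = k - x) :
    TS (2 * k + 1) k L lab [] lab (fun i => [lab i]) := by
  refine ⟨fun _ => rfl, fun _ => rfl, hlt, fun _ => le_rfl, ?_, ?_, fun _ => List.nil_sublist _, ?_⟩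
  · intro x hx
    rw [hlab, aft_nil_card hx]
    omega
  · intro x _ c hc
    rw [aft_nil_filter hc]
    simp only [Nat.min_zero, Finset.card_eq_zero, Finset.filter_eq_empty_iff, Finset.mem_univ,
      true_implies, not_and]
    intro i hi
    omega
  · simp [arcs]

theorem exists_state {k : ℕ} {L : ℕ × ℕ → Finset ℕ} {lab : I → ℕ} {ev : List (ℕ × ℕ)}
    (hG : Good (2 * k + 1) ev L) (hlt : ∀ i, lab i < 2 * k + 1)
    (hlab : ∀ x, (univ.filter fun i => lab i = x).card = k - x) :
    ∀ l₁ l₂, ev = l₁ ++ l₂ → ∃ pos path, TS (2 * k + 1) k L lab l₁ pos path := by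
  intro l₁
  induction l₁ using List.reverseRecOn with
  | nil => exact fun _ _ => ⟨lab, _, TS.init hlt hlab⟩
  | append_singleton l e ih =>
    intro l₂ hs
    obtain ⟨u, v⟩ := e
    obtain ⟨pos, path, h⟩ := ih ((u, v) :: l₂) (by simpa using hs)
    exact h.step hG (rest := l₂) (by simpa using hs)

/-- Long pairs: those with height difference more than `k`. -/
def longPairs (k : ℕ) : Finset (ℕ × ℕ) :=
  ((range (2 * k + 1)) ×ˢ (range (2 * k + 1))).filter fun p => p.1 + k + 1 ≤ p.2

theorem mem_longPairs {k : ℕ} {p : ℕ × ℕ} : p ∈ longPairs k ↔ p.1 + k + 1 ≤ p.2 ∧ p.2 < 2 * k + 1 := by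
  simp only [longPairs, Finset.mem_filter, Finset.mem_product, Finset.mem_range]
  omega

theorem sum_sub_mul_two (k : ℕ) : 2 * ∑ b ∈ range k, (k - b) = k * (k + 1) := by
  induction k with
  | zero => simp
  | succ n ih =>
    rw [Finset.sum_range_succ']
    simp only [Nat.add_sub_add_right, Nat.sub_zero]
    rw [mul_add, ih]
    ring

/-- The initial tokens: `k - b` tokens with label `b`, for `b < k`. -/
abbrev Tok (k : ℕ) : Type := Σ b : Fin k, Fin (k - b.val)

theorem card_Tok_label (k x : ℕ) :
    (univ.filter fun i : Tok k => i.1.val = x).card = k - x := by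
  rw [Finset.card_filter, Fintype.sum_sigma]
  by_cases hx : x < k
  · rw [Finset.sum_eq_single (⟨x, hx⟩ : Fin k)]
    · simp
    · intro b _ hb
      have : b.val ≠ x := fun h => hb (Fin.ext h)
      simp [this]
    · simp
  · have : k - x = 0 := by omega
    rw [this]
    refine Finset.sum_eq_zero fun b _ => Finset.sum_eq_zero fun j _ => ?_
    have : b.val ≠ x := by have := b.isLt; omega
    simp [this]

theorem card_Tok (k : ℕ) : 2 * (univ : Finset (Tok k)).card = k * (k + 1) := by
  rw [Finset.card_univ, Fintype.card_sigma]
  simp only [Fintype.card_fin]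
  rw [Fin.sum_univ_eq_sum_range (fun b => k - b) k]
  exact sum_sub_mul_two k

/-- Token chains: for each long pair `(b, t)` a chain from `b` to `t`; the chains partition the
pairs which have at least `k` points on their left. -/
theorem token_chains {k : ℕ} {L : ℕ × ℕ → Finset ℕ} {ev : List (ℕ × ℕ)}
    (hG : Good (2 * k + 1) ev L) :
    ∃ chain : ℕ × ℕ → List ℕ,
      (∀ p ∈ longPairs k, (chain p).head? = some p.1 ∧ (chain p).getLast? = some p.2 ∧
        (arcs (chain p)).Sublist ev) ∧
      ∑ p ∈ longPairs k, (↑(arcs (chain p)) : Multiset (ℕ × ℕ)) =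
        ↑(ev.filter fun e => k ≤ (L e).card) ∧
      2 * (longPairs k).card = k * (k + 1) := by
  classical
  have hlt : ∀ i : Tok k, i.1.val < 2 * k + 1 := by
    intro i
    have := i.1.isLt
    omega
  obtain ⟨pos, path, h⟩ := exists_state (I := Tok k) (lab := fun i => i.1.val) hG hlt
    (card_Tok_label k) ev [] (by simp)
  set lab : Tok k → ℕ := fun i => i.1.val with hlabdef
  have hT : ∀ t, t < 2 * k + 1 → (aft (2 * k + 1) ev t).card - k = t - k := by
    intro t ht
    rw [aft_full hG ht, Finset.card_range]
  have hcnt : ∀ t, t < 2 * k + 1 → ∀ c, c ≤ t →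
      (univ.filter fun i => pos i = t ∧ lab i < c).card = min (t - k) c := by
    intro t ht c hc
    rw [h.card_lt t ht c hc, hT t ht, aft_full hG ht]
    congr 1
    have : (range t).filter (· < c) = range c := by
      ext w
      simp only [Finset.mem_filter, Finset.mem_range]
      omega
    rw [this, Finset.card_range]
  -- each token ends at a long pair
  have hlong : ∀ i, lab i + k + 1 ≤ pos i := by
    intro i
    have hti := h.pos_lt i
    set t := pos i with ht
    have h1 := h.card_pos t hti
    rw [hT t hti] at h1
    have hpos : 1 ≤ t - k := by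
      rw [← h1]
      exact Finset.card_pos.2 ⟨i, by simp [ht]⟩
    have h2 := hcnt t hti (t - k) (by omega)
    have h3 : (univ.filter fun j => pos j = t ∧ lab j < t - k) =
        (univ.filter fun j => pos j = t) := by
      apply Finset.eq_of_subset_of_card_le
      · intro j hj
        simp only [Finset.mem_filter, Finset.mem_univ, true_and] at hj ⊢
        exact hj.1
      · rw [h1, h2]
        omega
    have : i ∈ (univ.filter fun j => pos j = t ∧ lab j < t - k) := by
      rw [h3]
      simp [ht]
    simp only [Finset.mem_filter, Finset.mem_univ, true_and] at this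
    omega
  -- exactly one token for each long pair
  have hone : ∀ p ∈ longPairs k, (univ.filter fun i => pos i = p.2 ∧ lab i = p.1).card = 1 := by
    intro p hp
    obtain ⟨hp1, hp2⟩ := mem_longPairs.1 hp
    have h1 := hcnt p.2 hp2 (p.1 + 1) (by omega)
    have h2 := hcnt p.2 hp2 p.1 (by omega)
    have h3 : (univ.filter fun i => pos i = p.2 ∧ lab i < p.1 + 1) =
        (univ.filter fun i => pos i = p.2 ∧ lab i < p.1) ∪
        (univ.filter fun i => pos i = p.2 ∧ lab i = p.1) := by
      ext i
      simp only [Finset.mem_filter, Finset.mem_univ, true_and, Finset.mem_union]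
      omega
    have h4 : Disjoint (univ.filter fun i => pos i = p.2 ∧ lab i < p.1)
        (univ.filter fun i => pos i = p.2 ∧ lab i = p.1) := by
      rw [Finset.disjoint_left]
      intro i hi hi'
      simp only [Finset.mem_filter, Finset.mem_univ, true_and] at hi hi'
      omega
    rw [h3, Finset.card_union_of_disjoint h4] at h1
    omega
  have hinj : ∀ i j, pos i = pos j → lab i = lab j → i = j := by
    intro i j h1 h2
    have hmem : (lab i, pos i) ∈ longPairs k :=
      mem_longPairs.2 ⟨hlong i, h.pos_lt i⟩
    have h3 := hone _ hmem
    rw [Finset.card_eq_one] at h3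
    obtain ⟨a, ha⟩ := h3
    have hi : i ∈ (univ.filter fun x => pos x = pos i ∧ lab x = lab i) := by simp
    have hj : j ∈ (univ.filter fun x => pos x = pos i ∧ lab x = lab i) := by
      simp [h1, h2]
    rw [ha] at hi hj
    rw [Finset.mem_singleton] at hi hj
    rw [hi, hj]
  have himg : longPairs k = univ.image (fun i => (lab i, pos i)) := by
    ext p
    simp only [Finset.mem_image, Finset.mem_univ, true_and]
    constructor
    · intro hp
      have h3 := hone p hp
      rw [Finset.card_eq_one] at h3
      obtain ⟨a, ha⟩ := h3
      have : a ∈ (univ.filter fun i => pos i = p.2 ∧ lab i = p.1) := by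
        rw [ha]; simp
      simp only [Finset.mem_filter, Finset.mem_univ, true_and] at this
      exact ⟨a, Prod.ext this.2 this.1⟩
    · rintro ⟨i, rfl⟩
      exact mem_longPairs.2 ⟨hlong i, h.pos_lt i⟩
  have hinj' : Function.Injective (fun i => (lab i, pos i)) := by
    intro i j hij
    simp only [Prod.mk.injEq] at hij
    exact hinj i j hij.2 hij.1
  -- the chain of a long pair
  let idx : ℕ × ℕ → Option (Tok k) := fun p =>
    if hp : ∃ i, (lab i, pos i) = p then some hp.choose else none
  let chain : ℕ × ℕ → List ℕ := fun p => ((idx p).map path).getD []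
  have hchain : ∀ i, chain (lab i, pos i) = path i := by
    intro i
    have hex : ∃ j, (lab j, pos j) = (lab i, pos i) := ⟨i, rfl⟩
    have : hex.choose = i := hinj' hex.choose_spec
    simp only [chain, idx, dif_pos hex, Option.map_some, Option.getD_some, this]
  refine ⟨chain, ?_, ?_, ?_⟩
  · intro p hp
    rw [himg] at hp
    simp only [Finset.mem_image, Finset.mem_univ, true_and] at hp
    obtain ⟨i, rfl⟩ := hp
    rw [hchain]
    exact ⟨h.head i, h.last i, h.sub i⟩
  · rw [himg, Finset.sum_image (fun i _ j _ hij => hinj' hij)]
    simp only [hchain]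
    exact h.sum_arcs
  · rw [himg, Finset.card_image_of_injective _ hinj']
    exact card_Tok k

end Process

end Vale.Agent.P040D
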