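import Vale.Agent.Lib.P040.Defs
import Vale.Agent.Lib.P040D.Token

/-!
All pairs of a point set sorted by direction: the sorted list satisfies the adjacency property
required by the token process.
-/

namespace Vale.Agent.P040D

open Finset
open Vale.Agent.P040

/-- Cross product of the direction vectors of two pairs of indices. -/
def crossDir (c : ℕ → ℝ × ℝ) (e f : ℕ × ℕ) : ℝ :=
  ((c e.2).1 - (c e.1).1) * ((c f.2).2 - (c f.1).2) -
    ((c e.2).2 - (c e.1).2) * ((c f.2).1 - (c f.1).1)

/-- The sort key of a pair: the negative cotangent of its direction. -/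
noncomputable def key (c : ℕ → ℝ × ℝ) (e : ℕ × ℕ) : ℝ :=
  -((c e.2).1 - (c e.1).1) / ((c e.2).2 - (c e.1).2)

open Classical in
/-- The points strictly to the left of a pair. -/
noncomputable def leftSet (m : ℕ) (c : ℕ → ℝ × ℝ) (e : ℕ × ℕ) : Finset ℕ :=
  (range m).filter fun w => 0 < det3 (c e.1) (c e.2) (c w)

/-- Points with indices sorted by height, in general position. -/
structure Sorted (m : ℕ) (c : ℕ → ℝ × ℝ) : Prop where
  mono : ∀ a b, a < b → b < m → (c a).2 < (c b).2
  gp : ∀ a b d, a < m → b < m → d < m → a ≠ b → b ≠ d → a ≠ d → det3 (c a) (c b) (c d) ≠ 0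

theorem crossDir_of_key {c : ℕ → ℝ × ℝ} {e f : ℕ × ℕ} (he : (c e.1).2 < (c e.2).2)
    (hf : (c f.1).2 < (c f.2).2) (h : key c e ≤ key c f) : 0 ≤ crossDir c e f := by
  unfold key at h
  unfold crossDir
  have h1 : 0 < (c e.2).2 - (c e.1).2 := by linarith
  have h2 : 0 < (c f.2).2 - (c f.1).2 := by linarith
  rw [div_le_div_iff₀ h1 h2] at h
  linarith

theorem good_of_pairwise {m : ℕ} {c : ℕ → ℝ × ℝ} {ev : List (ℕ × ℕ)} (hS : Sorted m c)
    (hnd : ev.Nodup) (hmem : ∀ u v, (u, v) ∈ ev ↔ u < v ∧ v < m)
    (hpw : ev.Pairwise fun e f => 0 ≤ crossDir c e f) : Good m ev (leftSet m c) := by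
  refine ⟨hnd, hmem, ?_, ?_⟩
  · intro l₁ l₂ u v hs
    subst hs
    have hin : (u, v) ∈ l₁ ++ (u, v) :: l₂ := by simp
    obtain ⟨huv, hvm⟩ := (hmem u v).1 hin
    have hpw' := List.pairwise_append.1 hpw
    have before : ∀ e ∈ l₁, 0 ≤ crossDir c e (u, v) := fun e he => hpw'.2.2 e he _ (by simp)
    have after : ∀ f ∈ l₂, 0 ≤ crossDir c (u, v) f := fun f hf =>
      (List.pairwise_cons.1 hpw'.2.1).1 f hf
    have hdis := (List.nodup_append.1 hnd).2.2
    have notboth : ∀ g, g ∈ l₁ → g ∈ l₂ → False := fun g h1 h2 =>
      hdis g h1 g (by simp [h2]) rfl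
    have hcases : ∀ g, g ∈ l₁ ++ (u, v) :: l₂ → g ≠ (u, v) → g ∈ l₁ ∨ g ∈ l₂ := by
      intro g hg hne
      simp only [List.mem_append, List.mem_cons] at hg
      rcases hg with h | h | h
      · exact Or.inl h
      · exact absurd h hne
      · exact Or.inr h
    have huvnot : (u, v) ∉ l₁ := fun h => hdis _ h _ (by simp) rfl
    ext w
    simp only [aft, leftSet, Finset.mem_filter, Finset.mem_range]
    refine and_congr_right fun hw => ?_
    constructor
    · rintro (⟨h1, h2⟩ | ⟨h1, h2⟩)
      · have hwu : w ≠ u := by
          rintro rfl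
          exact huvnot h2
        have h3 := before _ h2
        have hid : crossDir c (w, v) (u, v) = det3 (c u) (c v) (c w) := by
          unfold crossDir det3; ring
        rw [hid] at h3
        exact lt_of_le_of_ne h3 (hS.gp u v w (by omega) hvm hw huv.ne (by omega) (Ne.symm hwu)).symm
      · have hin2 : (v, w) ∈ l₁ ++ (u, v) :: l₂ := (hmem v w).2 ⟨h1, hw⟩
        have hne : (v, w) ≠ (u, v) := by
          intro h
          simp only [Prod.mk.injEq] at h
          omega
        have h3 : (v, w) ∈ l₂ := (hcases _ hin2 hne).resolve_left h2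
        have h4 := after _ h3
        have hid : crossDir c (u, v) (v, w) = det3 (c u) (c v) (c w) := by
          unfold crossDir det3; ring
        rw [hid] at h4
        exact lt_of_le_of_ne h4 (hS.gp u v w (by omega) hvm hw huv.ne (by omega) (by omega)).symm
    · intro hdet
      have hwu : w ≠ u := by
        rintro rfl
        have : det3 (c w) (c v) (c w) = 0 := by unfold det3; ring
        linarith
      have hwv : w ≠ v := by
        rintro rfl
        have : det3 (c u) (c w) (c w) = 0 := by unfold det3; ring
        linarith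
      rcases lt_or_gt_of_ne hwv with hlt | hgt
      · left
        refine ⟨hlt, ?_⟩
        have hin2 : (w, v) ∈ l₁ ++ (u, v) :: l₂ := (hmem w v).2 ⟨hlt, hvm⟩
        have hne : (w, v) ≠ (u, v) := by
          intro h
          simp only [Prod.mk.injEq] at h
          exact hwu h.1
        rcases hcases _ hin2 hne with h | h
        · exact h
        · have h4 := after _ h
          have hid : crossDir c (u, v) (w, v) = - det3 (c u) (c v) (c w) := by
            unfold crossDir det3; ring
          rw [hid] at h4
          linarith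
      · right
        refine ⟨hgt, fun h => ?_⟩
        have h4 := before _ h
        have hid : crossDir c (v, w) (u, v) = - det3 (c u) (c v) (c w) := by
          unfold crossDir det3; ring
        rw [hid] at h4
        linarith
  · intro l₁ l₂ u v hs
    subst hs
    have hin : (u, v) ∈ l₁ ++ (u, v) :: l₂ := by simp
    obtain ⟨huv, hvm⟩ := (hmem u v).1 hin
    have hpw' := List.pairwise_append.1 hpw
    have before : ∀ e ∈ l₁, 0 ≤ crossDir c e (u, v) := fun e he => hpw'.2.2 e he _ (by simp)
    have after : ∀ f ∈ l₂, 0 ≤ crossDir c (u, v) f := fun f hf =>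
      (List.pairwise_cons.1 hpw'.2.1).1 f hf
    have hdis := (List.nodup_append.1 hnd).2.2
    have hcases : ∀ g, g ∈ l₁ ++ (u, v) :: l₂ → g ≠ (u, v) → g ∈ l₁ ∨ g ∈ l₂ := by
      intro g hg hne
      simp only [List.mem_append, List.mem_cons] at hg
      rcases hg with h | h | h
      · exact Or.inl h
      · exact absurd h hne
      · exact Or.inr h
    have huvnot : (u, v) ∉ l₁ := fun h => hdis _ h _ (by simp) rfl
    ext w
    simp only [aft, leftSet, Finset.mem_filter, Finset.mem_range, Finset.mem_insert]
    constructor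
    · rintro ⟨hw, (⟨h1, h2⟩ | ⟨h1, h2⟩)⟩
      · right
        refine ⟨hw, ?_⟩
        have h3 := before _ h2
        have hid : crossDir c (w, u) (u, v) = det3 (c u) (c v) (c w) := by
          unfold crossDir det3; ring
        rw [hid] at h3
        exact lt_of_le_of_ne h3 (hS.gp u v w (by omega) hvm hw huv.ne (by omega) (by omega)).symm
      · by_cases hwv : w = v
        · exact Or.inl hwv
        · right
          refine ⟨hw, ?_⟩
          have hin2 : (u, w) ∈ l₁ ++ (u, v) :: l₂ := (hmem u w).2 ⟨h1, hw⟩
          have hne : (u, w) ≠ (u, v) := by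
            intro h
            simp only [Prod.mk.injEq] at h
            exact hwv h.2
          have h3 : (u, w) ∈ l₂ := (hcases _ hin2 hne).resolve_left h2
          have h4 := after _ h3
          have hid : crossDir c (u, v) (u, w) = det3 (c u) (c v) (c w) := by
            unfold crossDir det3; ring
          rw [hid] at h4
          exact lt_of_le_of_ne h4 (hS.gp u v w (by omega) hvm hw huv.ne (Ne.symm hwv)
            (by omega)).symm
    · rintro (rfl | ⟨hw, hdet⟩)
      · exact ⟨hvm, Or.inr ⟨huv, huvnot⟩⟩
      · refine ⟨hw, ?_⟩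
        have hwu : w ≠ u := by
          rintro rfl
          have : det3 (c w) (c v) (c w) = 0 := by unfold det3; ring
          linarith
        rcases lt_or_gt_of_ne hwu with hlt | hgt
        · left
          refine ⟨hlt, ?_⟩
          have hin2 : (w, u) ∈ l₁ ++ (u, v) :: l₂ := (hmem w u).2 ⟨hlt, by omega⟩
          have hne : (w, u) ≠ (u, v) := by
            intro h
            simp only [Prod.mk.injEq] at h
            omega
          rcases hcases _ hin2 hne with h | h
          · exact h
          · have h4 := after _ h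
            have hid : crossDir c (u, v) (w, u) = - det3 (c u) (c v) (c w) := by
              unfold crossDir det3; ring
            rw [hid] at h4
            linarith
        · right
          refine ⟨hgt, fun h => ?_⟩
          have h4 := before _ h
          have hid : crossDir c (u, w) (u, v) = - det3 (c u) (c v) (c w) := by
            unfold crossDir det3; ring
          rw [hid] at h4
          linarith

/-- The list of all pairs `u < v < m` in some order. -/
noncomputable def allPairs (m : ℕ) : List (ℕ × ℕ) :=
  (((range m) ×ˢ (range m)).filter fun p => p.1 < p.2).toList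

theorem allPairs_nodup (m : ℕ) : (allPairs m).Nodup := Finset.nodup_toList _

theorem mem_allPairs {m u v : ℕ} : (u, v) ∈ allPairs m ↔ u < v ∧ v < m := by
  simp only [allPairs, Finset.mem_toList, Finset.mem_filter, Finset.mem_product, Finset.mem_range]
  omega

theorem exists_sorted_list {α : Type*} (f : α → ℝ) (l : List α) :
    ∃ l' : List α, l'.Perm l ∧ l'.Pairwise fun a b => f a ≤ f b := by
  classical
  have : Std.Total (fun a b : α => f a ≤ f b) := ⟨fun a b => le_total _ _⟩
  have : IsTrans α (fun a b : α => f a ≤ f b) := ⟨fun a b d h1 h2 => le_trans h1 h2⟩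
  exact ⟨l.insertionSort (fun a b => f a ≤ f b), List.perm_insertionSort _ _,
    List.pairwise_insertionSort _ _⟩

/-- The sorted list of pairs. -/
theorem exists_events {m : ℕ} {c : ℕ → ℝ × ℝ} (hS : Sorted m c) :
    ∃ ev : List (ℕ × ℕ), ev.Perm (allPairs m) ∧ Good m ev (leftSet m c) ∧
      ev.Pairwise fun e f => 0 ≤ crossDir c e f := by
  obtain ⟨ev, hp, hs⟩ := exists_sorted_list (key c) (allPairs m)
  have hmem : ∀ u v, (u, v) ∈ ev ↔ u < v ∧ v < m := by
    intro u v
    rw [hp.mem_iff, mem_allPairs]
  have hnd : ev.Nodup := hp.nodup_iff.2 (allPairs_nodup m)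
  have hpw : ev.Pairwise fun e f => 0 ≤ crossDir c e f := by
    refine List.Pairwise.imp_of_mem ?_ hs
    intro e f he hf h
    obtain ⟨u, v⟩ := e
    obtain ⟨x, y⟩ := f
    obtain ⟨h1, h2⟩ := (hmem u v).1 he
    obtain ⟨h3, h4⟩ := (hmem x y).1 hf
    exact crossDir_of_key (hS.mono _ _ h1 h2) (hS.mono _ _ h3 h4) h
  exact ⟨ev, hp, good_of_pairwise hS hnd hmem hpw, hpw⟩

/-- Mirror image in the vertical axis. -/
def mir (p : ℝ × ℝ) : ℝ × ℝ := (-p.1, p.2)

@[simp] theorem mir_mir (p : ℝ × ℝ) : mir (mir p) = p := by
  simp [mir]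

theorem det3_mir (p q r : ℝ × ℝ) : det3 (mir p) (mir q) (mir r) = - det3 p q r := by
  unfold det3 mir
  ring

theorem Sorted.mirror {m : ℕ} {c : ℕ → ℝ × ℝ} (hS : Sorted m c) : Sorted m (fun i => mir (c i)) := by
  refine ⟨fun a b h1 h2 => hS.mono a b h1 h2, ?_⟩
  intro a b d ha hb hd h1 h2 h3
  simp only [det3_mir]
  exact neg_ne_zero.2 (hS.gp a b d ha hb hd h1 h2 h3)

/-- Each pair has `m - 2` other points, split between its two sides. -/
theorem leftSet_card_add {m : ℕ} {c : ℕ → ℝ × ℝ} (hS : Sorted m c) {u v : ℕ} (huv : u < v)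
    (hv : v < m) :
    (leftSet m c (u, v)).card + (leftSet m (fun i => mir (c i)) (u, v)).card + 2 = m := by
  classical
  have hd : Disjoint (leftSet m c (u, v)) (leftSet m (fun i => mir (c i)) (u, v)) := by
    rw [Finset.disjoint_left]
    intro w h1 h2
    simp only [leftSet, Finset.mem_filter, det3_mir] at h1 h2
    linarith [h1.2, h2.2]
  have hu : leftSet m c (u, v) ∪ leftSet m (fun i => mir (c i)) (u, v) =
      ((range m).erase u).erase v := by
    ext w
    simp only [leftSet, Finset.mem_union, Finset.mem_filter, Finset.mem_range, det3_mir,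
      Finset.mem_erase]
    constructor
    · rintro (⟨h1, h2⟩ | ⟨h1, h2⟩)
      · refine ⟨?_, ?_, h1⟩
        · rintro rfl
          have : det3 (c u) (c w) (c w) = 0 := by unfold det3; ring
          linarith
        · rintro rfl
          have : det3 (c w) (c v) (c w) = 0 := by unfold det3; ring
          linarith
      · refine ⟨?_, ?_, h1⟩
        · rintro rfl
          have : det3 (c u) (c w) (c w) = 0 := by unfold det3; ring
          linarith
        · rintro rfl
          have : det3 (c w) (c v) (c w) = 0 := by unfold det3; ring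
          linarith
    · rintro ⟨h1, h2, h3⟩
      have := hS.gp u v w (by omega) hv h3 huv.ne (Ne.symm h1) (Ne.symm h2)
      rcases lt_or_gt_of_ne this with h | h
      · right
        exact ⟨h3, by linarith⟩
      · left
        exact ⟨h3, h⟩
  rw [← Finset.card_union_of_disjoint hd, hu]
  rw [Finset.card_erase_of_mem, Finset.card_erase_of_mem, Finset.card_range]
  · omega
  · simp; omega
  · simp only [Finset.mem_erase, Finset.mem_range]
    exact ⟨huv.ne', hv⟩

end Vale.Agent.P040D
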