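import Vale.Agent.Lib.P040D.Geom

/-!
Chains turning to the left, and closed polygons made from two such chains.
-/

namespace Vale.Agent.P040D

open Finset
open Vale.Agent.P040

/-- Cross product of `q - p` and `s - r`. -/
def cr (p q r s : ℝ × ℝ) : ℝ := (q.1 - p.1) * (s.2 - r.2) - (q.2 - p.2) * (s.1 - r.1)

/-- An upward chain of points turning to the left. -/
structure LTChain (P : ℕ → ℝ × ℝ) (a : ℕ) : Prop where
  up : ∀ i, i < a → (P i).2 < (P (i + 1)).2
  weak : ∀ i j, i < j → j < a → 0 ≤ cr (P i) (P (i + 1)) (P j) (P (j + 1))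
  strict : ∀ i, i + 1 < a → 0 < det3 (P i) (P (i + 1)) (P (i + 2))

variable {P Q : ℕ → ℝ × ℝ} {a d : ℕ}

theorem LTChain.height_lt (h : LTChain P a) {i j : ℕ} (hij : i < j) (hj : j ≤ a) :
    (P i).2 < (P j).2 := by
  induction j, hij using Nat.le_induction with
  | base => exact h.up i (by omega)
  | succ j hj' ih =>
    exact lt_trans (ih (by omega)) (h.up j (by omega))

theorem LTChain.left_after (h : LTChain P a) {i : ℕ} :
    ∀ l, i + 2 + l ≤ a → 0 < det3 (P i) (P (i + 1)) (P (i + 2 + l)) := by
  intro l
  induction l with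
  | zero =>
    intro hl
    exact h.strict i (by omega)
  | succ l ih =>
    intro hl
    have h1 := ih (by omega)
    have h2 := h.weak i (i + 2 + l) (by omega) (by omega)
    have hid : det3 (P i) (P (i + 1)) (P (i + 2 + (l + 1))) =
        det3 (P i) (P (i + 1)) (P (i + 2 + l)) +
          cr (P i) (P (i + 1)) (P (i + 2 + l)) (P (i + 2 + l + 1)) := by
      rw [show i + 2 + (l + 1) = i + 2 + l + 1 by omega]
      unfold det3 cr
      ring
    rw [hid]
    linarith

theorem LTChain.left_before (h : LTChain P a) {i : ℕ} (hi : i < a) :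
    ∀ l j, j + 1 + l = i → 0 < det3 (P i) (P (i + 1)) (P j) := by
  intro l
  induction l with
  | zero =>
    intro j hj
    have hi' : i = j + 1 := by omega
    subst hi'
    have := h.strict j (by omega)
    have hid : det3 (P (j + 1)) (P (j + 1 + 1)) (P j) = det3 (P j) (P (j + 1)) (P (j + 2)) := by
      unfold det3
      ring
    rw [hid]
    exact this
  | succ l ih =>
    intro j hj
    have h1 := ih (j + 1) (by omega)
    have h2 := h.weak j i (by omega) hi
    have hid : det3 (P i) (P (i + 1)) (P j) =
        det3 (P i) (P (i + 1)) (P (j + 1)) + cr (P j) (P (j + 1)) (P i) (P (i + 1)) := by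
      unfold det3 cr
      ring
    rw [hid]
    linarith

theorem LTChain.left (h : LTChain P a) {i j : ℕ} (hi : i < a) (hj : j ≤ a) (h1 : j ≠ i)
    (h2 : j ≠ i + 1) : 0 < det3 (P i) (P (i + 1)) (P j) := by
  rcases Nat.lt_or_gt_of_ne h1 with hlt | hgt
  · exact h.left_before hi (i - j - 1) j (by omega)
  · have := h.left_after (i := i) (j - i - 2) (by omega)
    rwa [show i + 2 + (j - i - 2) = j by omega] at this

theorem LTChain.left_le (h : LTChain P a) {i j : ℕ} (hi : i < a) (hj : j ≤ a) :
    0 ≤ det3 (P i) (P (i + 1)) (P j) := by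
  by_cases h1 : j = i
  · subst h1
    have : det3 (P j) (P (j + 1)) (P j) = 0 := by unfold det3; ring
    rw [this]
  by_cases h2 : j = i + 1
  · subst h2
    have : det3 (P i) (P (i + 1)) (P (i + 1)) = 0 := by unfold det3; ring
    rw [this]
  exact (h.left hi hj h1 h2).le

theorem LTChain.chord_aux (h : LTChain P a) {l : ℕ} (h0 : 0 < l) (hl : l < a) :
    ∀ b, l < b → b ≤ a → det3 (P 0) (P b) (P l) < 0 := by
  intro b hb
  induction b, hb using Nat.le_induction with
  | base =>
    intro _
    have h1 := h.left hl (j := 0) (by omega) (by omega) (by omega)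
    have hid : det3 (P 0) (P (l + 1)) (P l) = - det3 (P l) (P (l + 1)) (P 0) := by
      unfold det3
      ring
    rw [hid]
    linarith
  | succ b hb ih =>
    intro hb'
    have h1 := ih (by omega)
    have h2 := h.left (i := b) (j := l) (by omega) (by omega) (by omega) (by omega)
    have y1 := h.height_lt h0 (by omega : l ≤ a)
    have y2 := h.height_lt (show l < b by omega) (by omega)
    have y3 := h.height_lt (show l < b + 1 by omega) (by omega)
    have hid : ((P b).2 - (P l).2) * det3 (P 0) (P (b + 1)) (P l) =
        ((P (b + 1)).2 - (P l).2) * det3 (P 0) (P b) (P l) +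
          ((P 0).2 - (P l).2) * det3 (P l) (P b) (P (b + 1)) := by
      unfold det3
      ring
    have hid2 : det3 (P l) (P b) (P (b + 1)) = det3 (P b) (P (b + 1)) (P l) := by
      unfold det3
      ring
    rw [hid2] at hid
    have s1 : ((P (b + 1)).2 - (P l).2) * det3 (P 0) (P b) (P l) < 0 :=
      mul_neg_of_pos_of_neg (by linarith) h1
    have s2 : ((P 0).2 - (P l).2) * det3 (P b) (P (b + 1)) (P l) < 0 :=
      mul_neg_of_neg_of_pos (by linarith) h2
    have s3 : ((P b).2 - (P l).2) * det3 (P 0) (P (b + 1)) (P l) < 0 := by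
      rw [hid]
      linarith
    by_contra hn
    have : 0 ≤ det3 (P 0) (P (b + 1)) (P l) := not_lt.1 hn
    have : 0 ≤ ((P b).2 - (P l).2) * det3 (P 0) (P (b + 1)) (P l) :=
      mul_nonneg (by linarith) this
    linarith

theorem LTChain.chord (h : LTChain P a) {l : ℕ} (h0 : 0 < l) (hl : l < a) :
    det3 (P 0) (P a) (P l) < 0 :=
  h.chord_aux h0 hl a hl le_rfl

theorem side_cross (hP : LTChain P a) (hQ : LTChain (fun i => mir (Q i)) d) (h0 : P 0 = Q 0)
    (h1 : P a = Q d) {i l : ℕ} (hi : i < a) (hl0 : 0 < l) (hl : l < d) :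
    0 < det3 (P i) (P (i + 1)) (Q l) := by
  have hc := hQ.chord hl0 hl
  simp only [det3_mir] at hc
  rw [← h0, ← h1] at hc
  have hc' : 0 < det3 (P 0) (P a) (Q l) := by linarith
  have y1 := hQ.height_lt hl0 hl.le
  have y3 := hQ.height_lt hl (le_refl d)
  simp only [mir] at y1 y3
  rw [← h0] at y1
  rw [← h1] at y3
  have H0 := hP.left_le hi (Nat.zero_le a)
  have H1 := hP.left_le hi (le_refl a)
  have yy := hP.up i hi
  have hid : ((P a).2 - (P 0).2) * det3 (P i) (P (i + 1)) (Q l) =
      ((P a).2 - (Q l).2) * det3 (P i) (P (i + 1)) (P 0) +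
        ((Q l).2 - (P 0).2) * det3 (P i) (P (i + 1)) (P a) +
        ((P (i + 1)).2 - (P i).2) * det3 (P 0) (P a) (Q l) := by
    unfold det3
    ring
  have s1 : 0 ≤ ((P a).2 - (Q l).2) * det3 (P i) (P (i + 1)) (P 0) :=
    mul_nonneg (by linarith) H0
  have s2 : 0 ≤ ((Q l).2 - (P 0).2) * det3 (P i) (P (i + 1)) (P a) :=
    mul_nonneg (by linarith) H1
  have s3 : 0 < ((P (i + 1)).2 - (P i).2) * det3 (P 0) (P a) (Q l) :=
    mul_pos (by linarith) hc'
  have s4 : 0 < ((P a).2 - (P 0).2) * det3 (P i) (P (i + 1)) (Q l) := by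
    rw [hid]
    linarith
  exact (pos_iff_pos_of_mul_pos s4).1 (by linarith)

/-- The `i`-th entry of a list of indices. -/
def gt (p : List ℕ) (i : ℕ) : ℕ := p.getD i 0

theorem arcs_length (p : List ℕ) : (arcs p).length = p.length - 1 := by
  induction p with
  | nil => rfl
  | cons x l ih =>
    cases l with
    | nil => rfl
    | cons y l' =>
      simp only [arcs, List.length_cons] at ih ⊢
      omega

theorem arcs_getElem (p : List ℕ) : ∀ i (hi : i < (arcs p).length),
    (arcs p)[i] = (gt p i, gt p (i + 1)) := by
  induction p with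
  | nil => intro i hi; simp [arcs] at hi
  | cons x l ih =>
    cases l with
    | nil => intro i hi; simp [arcs] at hi
    | cons y l' =>
      intro i hi
      cases i with
      | zero => simp [arcs, gt]
      | succ i =>
        have h1 : i < (arcs (y :: l')).length := by
          simpa [arcs] using hi
        have := ih i h1
        simp only [arcs, List.getElem_cons_succ]
        rw [this]
        simp [gt]

theorem ltchain_of_sublist {m : ℕ} {c : ℕ → ℝ × ℝ} {ev : List (ℕ × ℕ)} (hS : Sorted m c)
    (hmem : ∀ u v, (u, v) ∈ ev ↔ u < v ∧ v < m)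
    (hpw : ev.Pairwise fun e f => 0 ≤ crossDir c e f) {p : List ℕ}
    (hsub : (arcs p).Sublist ev) :
    LTChain (fun i => c (gt p i)) (arcs p).length := by
  have harc : ∀ i, i < (arcs p).length → gt p i < gt p (i + 1) ∧ gt p (i + 1) < m := by
    intro i hi
    have h1 : (arcs p)[i] ∈ ev := hsub.subset (List.getElem_mem hi)
    rw [arcs_getElem p i hi] at h1
    exact (hmem _ _).1 h1
  have hw : ∀ i j (hi : i < (arcs p).length) (hj : j < (arcs p).length), i < j →
      0 ≤ crossDir c (gt p i, gt p (i + 1)) (gt p j, gt p (j + 1)) := by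
    intro i j hi hj hij
    have h1 := (hpw.sublist hsub)
    have h2 := List.pairwise_iff_getElem.1 h1 i j hi hj hij
    rwa [arcs_getElem p i hi, arcs_getElem p j hj] at h2
  refine ⟨?_, ?_, ?_⟩
  · intro i hi
    have := harc i hi
    exact hS.mono _ _ this.1 this.2
  · intro i j hij hj
    exact hw i j (by omega) hj hij
  · intro i hi
    have h1 := harc i (by omega)
    have h2 := harc (i + 1) hi
    have h3 := hw i (i + 1) (by omega) hi (by omega)
    have hid : crossDir c (gt p i, gt p (i + 1)) (gt p (i + 1), gt p (i + 1 + 1)) =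
        det3 (c (gt p i)) (c (gt p (i + 1))) (c (gt p (i + 2))) := by
      unfold crossDir det3
      simp only
      ring
    rw [hid] at h3
    exact lt_of_le_of_ne h3 (hS.gp _ _ _ (by omega) (by omega) h2.2 (by omega) (by omega)
      (by omega)).symm

/-- The vertices of the closed polygon made of two chains with common endpoints. -/
def polyV (p q : List ℕ) (i : ℕ) : ℕ :=
  if i ≤ (arcs p).length then gt p i else gt q ((arcs p).length + (arcs q).length - i)

section Polygon

variable {c : ℕ → ℝ × ℝ} {p q : List ℕ}

theorem polyV_le {i : ℕ} (hi : i ≤ (arcs p).length) : polyV p q i = gt p i := by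
  simp [polyV, hi]

theorem polyV_gt {i : ℕ} (hi : (arcs p).length < i) :
    polyV p q i = gt q ((arcs p).length + (arcs q).length - i) := by
  simp [polyV, not_le.2 hi]

/-- All vertices from the index `a` on read the second chain backwards. -/
theorem polyV_ge (h1 : gt p (arcs p).length = gt q (arcs q).length) {i : ℕ}
    (hi : (arcs p).length ≤ i) :
    polyV p q i = gt q ((arcs p).length + (arcs q).length - i) := by
  rcases Nat.eq_or_lt_of_le hi with h | h
  · rw [← h, polyV_le le_rfl, h1]
    congr 1
    omega
  · exact polyV_gt h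

theorem poly_convex
    (hP : LTChain (fun i => c (gt p i)) (arcs p).length)
    (hQ : LTChain (fun i => mir (c (gt q i))) (arcs q).length)
    (h0 : gt p 0 = gt q 0) (h1 : gt p (arcs p).length = gt q (arcs q).length)
    {i j : ℕ} (hi : i < (arcs p).length + (arcs q).length)
    (hj : j < (arcs p).length + (arcs q).length) (hji : j ≠ i) (hji1 : j ≠ i + 1)
    (hw : i + 1 = (arcs p).length + (arcs q).length → j ≠ 0) :
    0 < det3 (c (polyV p q i)) (c (polyV p q (i + 1))) (c (polyV p q j)) := by
  set a := (arcs p).length with ha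
  set d := (arcs q).length with hd
  by_cases hia : i < a
  · rw [polyV_le (by omega), polyV_le (by omega)]
    by_cases hja : j ≤ a
    · rw [polyV_le hja]
      exact hP.left hia hja hji hji1
    · rw [polyV_gt (by omega)]
      exact side_cross (P := fun i => c (gt p i)) (Q := fun i => c (gt q i)) hP hQ
        (congrArg c h0) (congrArg c h1) hia (by omega) (by omega)
  · -- a side of the second chain
    obtain ⟨l, hl⟩ : ∃ l, l + 1 + i = a + d := ⟨a + d - i - 1, by omega⟩
    have e1 : polyV p q i = gt q (l + 1) := by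
      rw [polyV_ge h1 (by omega)]
      congr 1
      omega
    have e2 : polyV p q (i + 1) = gt q l := by
      rw [polyV_ge h1 (by omega)]
      congr 1
      omega
    rw [e1, e2]
    have hld : l < d := by omega
    have hsw : ∀ X : ℝ × ℝ, det3 (c (gt q (l + 1))) (c (gt q l)) X =
        det3 (mir (c (gt q l))) (mir (c (gt q (l + 1)))) (mir X) := by
      intro X
      unfold det3 mir
      simp only
      ring
    rw [hsw]
    by_cases hja : a ≤ j
    · rw [polyV_ge h1 hja]
      exact hQ.left hld (by omega) (by omega) (by omega)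
    · rw [polyV_le (by omega)]
      rcases Nat.eq_zero_or_pos j with hj0 | hj0
      · subst hj0
        rw [h0]
        refine hQ.left hld (by omega) ?_ (by omega)
        intro hl0
        exact hw (by omega) rfl
      · have hP' : LTChain (fun i => mir (mir (c (gt p i)))) a := by
          simpa using hP
        exact side_cross (P := fun i => mir (c (gt q i))) (Q := fun i => mir (c (gt p i))) hQ hP'
          (congrArg (fun x => mir (c x)) h0.symm) (congrArg (fun x => mir (c x)) h1.symm)
          hld hj0 (by omega)

end Polygon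

end Vale.Agent.P040D
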