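import Vale.Agent.Lib.P040D.Iface
import Vale.Agent.Lib.P040.TwoPoly

/-!
The two polygon lemma in the form of the interface.
-/

namespace Vale.Agent.P040D

open Vale.Agent.P040

theorem pos_eq_of_mul_pos {a b x y : ℝ × ℝ} (h : 0 < det3 a b x * det3 a b y) :
    pos a b x = pos a b y := by
  unfold pos
  rcases pos_and_pos_or_neg_and_neg_of_mul_pos h with ⟨h1, h2⟩ | ⟨h1, h2⟩
  · simp [h1, h2]
  · simp [not_lt.2 h1.le, not_lt.2 h2.le]

theorem twoPolyStatement : TwoPolyStatement := by
  intro N M P Q hP hQ hgp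
  refine le_trans (Vale.Agent.P040.two_poly (P := P) (Q := Q) hP hQ hgp) ?_
  apply Finset.card_le_card
  intro t ht
  simp only [Finset.mem_filter, Finset.mem_univ, true_and] at ht
  simp only [crossPairs, Finset.mem_filter, Finset.mem_univ, true_and]
  exact ⟨pos_eq_of_mul_pos ht.1, pos_eq_of_mul_pos ht.2⟩

end Vale.Agent.P040D
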